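import Mathlib

/-!
# Row 256, unit OG (off-gap path contradiction), file 1: FROZEN DEFINITIONS      (architect helper277)

Paper: 06-cylinder-actions.tex l.848-1079, Lemma act:off-gap-path.  PAPER FREE real analysis, Mathlib only.
`t` = backward time `1 - a`, `v` = horizontal width exponent, seam `v = J t`.
* `E t v` canonical excess, `Eg g t v` its normal enlargement, `m t v` angular trace, `U x t y` angular score, `MX t v h g` the loss of one finite step.
* `DomR` = closed strip of width `wd` to the right of the seam, `DomS` = `DomR` minus the seam, `Dom` = `DomR` plus everything to the left of the seam.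
* `OgDiniLe φ x c` : the upper right Dini derivative of `φ` at `x` is `≤ c`  (the form in which Sec. 5 produces (surplus); no Rademacher needed).
* `OgData.Ok` = the hypotheses of the lemma;  GOAL `og_main : D.Ok → False`  (file `Main.lean`).

PROOF PLAN (differs from the paper: no threshold function `σ`, no stopping time, no Fubini selection):
* `og_ps` (positive segment): along a line of speed `kp`, with `ψ τ = E (t+τ) (v+kp τ) - 2Γ (T-t-τ)`, a.e. either `ψ' ≤ 0` (surplus) or `ψ ≥ 0` (vertical freezing up to `T`); apply the 1-D lemma to `min ψ 0`.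
* `og_cellZ` (abstract): a run of finite steps until the width leaves a cell or the time is up; the intervals `[v_i - h, v_i]` are disjoint since the speeds are `≥ 1`.
* `J > 0`: either some `A_q = {v : m q v > 0, (q,v) right of the seam}` (`q` rational) has positive measure: density point + `og_ps` (`og_caseP`); or all are null: steps only (`og_caseZ`).
* `J = 0`: pigeonhole in time (few transition widths), uniform cells in width, in each cell the better of `og_ps` / steps (`og_J0`).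
-/

set_option autoImplicit false

namespace Claimed.Agent.R256

open MeasureTheory Filter Topology

/-- the upper right Dini derivative of `φ` at `x` is at most `c` -/
def OgDiniLe (φ : ℝ → ℝ) (x c : ℝ) : Prop :=
  ∀ ε : ℝ, 0 < ε → ∀ᶠ h in 𝓝[>] (0 : ℝ), φ (x + h) - φ x ≤ (c + ε) * h

/-- the data of the off-gap lemma -/
structure OgData where
  Γ : ℝ
  J : ℝ
  k0 : ℝ
  kp : ℝ
  kmin : ℝ
  kmax : ℝ
  Ks : ℝ
  A0 : ℝ
  Lip : ℝ
  Ce : ℝ
  g0 : ℝ
  t0 : ℝ
  t1 : ℝ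
  wd : ℝ
  E : ℝ → ℝ → ℝ
  Eg : ℝ → ℝ → ℝ → ℝ
  m : ℝ → ℝ → ℝ
  U : ℝ → ℝ → ℝ → ℝ
  MX : ℝ → ℝ → ℝ → ℝ → ℝ

namespace OgData

variable (D : OgData)

/-- the closed strip to the right of the seam -/
def DomR (t v : ℝ) : Prop := D.t0 < t ∧ t < D.t1 ∧ D.J * t ≤ v ∧ v ≤ D.J * t + D.wd

/-- strictly to the right of the seam -/
def DomS (t v : ℝ) : Prop := D.DomR t v ∧ D.J * t < v

/-- the strip together with the region to the left of the seam -/
def Dom (t v : ℝ) : Prop := D.t0 < t ∧ t < D.t1 ∧ 0 ≤ v ∧ v ≤ D.J * t + D.wd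

/-- the constant of the bad-width charge -/
noncomputable def C0 : ℝ := D.Lip * (1 + D.kp) + 2 * D.Γ

/-- the largest speed -/
noncomputable def Kx : ℝ := max D.kp D.kmax

open Classical in
/-- the density that dominates the losses of the finite steps (`S` = a fixed finite set of later rational times) -/
noncomputable def G (S : Finset ℚ) (h y : ℝ) : ℝ :=
  ∑ q ∈ S, if D.DomS (q : ℝ) y then D.U (y + (D.Ks + 1) * h) (q : ℝ) y / h else 0

/-- the widths charged by the angular trace at one of the times of `S` -/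
def Pos (S : Finset ℚ) : Set ℝ := {y | ∃ q ∈ S, D.DomS (q : ℝ) y ∧ 0 < D.m (q : ℝ) y}

/-- the hypotheses of Lemma act:off-gap-path (with `Γ > 0`, to be refuted) -/
structure Ok : Prop where
  Γ_pos : 0 < D.Γ
  J_nn : 0 ≤ D.J
  t0_nn : 0 ≤ D.t0
  t_lt : D.t0 < D.t1
  wd_pos : 0 < D.wd
  g0_pos : 0 < D.g0
  kmin_one : 1 ≤ D.kmin
  kmin_le : D.kmin ≤ D.kmax
  J_lt_kmin : D.J < D.kmin
  kp_one : 1 ≤ D.kp
  J_lt_kp : D.J < D.kp
  Ks_nn : 0 ≤ D.Ks
  A0_nn : 0 ≤ D.A0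
  Lip_nn : 0 ≤ D.Lip
  Ce_nn : 0 ≤ D.Ce
  E_nn : ∀ t v, D.Dom t v → 0 ≤ D.E t v
  E_lip : ∀ t v t' v', D.Dom t v → D.Dom t' v' →
    |D.E t v - D.E t' v'| ≤ D.Lip * (|t - t'| + |v - v'|)
  Eg_nn : ∀ g t v, 0 < g → g ≤ D.g0 → D.DomR t v → 0 ≤ D.Eg g t v
  enl : ∀ g t v, 0 < g → g ≤ D.g0 → D.DomR t v → |D.Eg g t v - D.E t v| ≤ D.Ce * g
  seam : ∀ t, D.t0 < t → t < D.t1 → D.E t (D.J * t) = 0
  /-- (step); `δ` = distance to the seam, the admissible gaps `h ≤ ρ` depend on `g` and `δ` -/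
  step : ∀ g, 0 < g → g ≤ D.g0 → ∀ δ, 0 < δ → ∃ ρ, 0 < ρ ∧ ∀ h t v, 0 < h → h ≤ ρ → D.t0 < t →
    t + h < D.t1 → D.J * t + δ ≤ v → v + D.kmax * h ≤ D.J * (t + h) + D.wd →
    ∃ k, D.kmin ≤ k ∧ k ≤ D.kmax ∧
      D.Γ * h - D.MX t v h g ≤ D.Eg g t v - D.Eg g (t + h) (v + k * h)
  /-- (shift) -/
  shift : ∀ g h t v t' y, 0 < g → g ≤ D.g0 → 0 < h → D.DomR t v → t + h + D.A0 * g < t' →
    D.DomR t' y → v - h ≤ y → y ≤ v → D.MX t v h g ≤ D.U (y + (D.Ks + 1) * h) t' y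
  U_nn : ∀ h t y, 0 < h → D.DomR t y → 0 ≤ D.U (y + (D.Ks + 1) * h) t y
  U_le : ∀ h t y, 0 < h → D.DomR t y → D.U (y + (D.Ks + 1) * h) t y ≤ (D.Ks + 1) * h
  U_meas : ∀ h t, Measurable fun y => D.U (y + (D.Ks + 1) * h) t y
  /-- (act:shift-limit) at rational times -/
  ang : ∀ q : ℚ, D.t0 < (q : ℝ) → (q : ℝ) < D.t1 → ∀ᵐ y : ℝ, D.DomR (q : ℝ) y →
    Tendsto (fun h : ℝ => D.U (y + (D.Ks + 1) * h) (q : ℝ) y / h) (𝓝[>] 0)
      (𝓝 ((D.Ks + 1) * D.m (q : ℝ) y))
  m_nn : ∀ t v, 0 ≤ D.m t v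
  m_mono : ∀ v t t', D.Dom t v → t ≤ t' → t' < D.t1 → D.m t v ≤ D.m t' v
  m_meas : ∀ t, Measurable (D.m t)
  /-- (surplus) at speed `kp`, where `0 < m ≤ k0` -/
  surplus : ∀ᵐ p : ℝ × ℝ, D.DomR p.1 p.2 → 0 < D.m p.1 p.2 → D.m p.1 p.2 ≤ D.k0 →
    OgDiniLe (fun τ => D.E (p.1 + τ) (p.2 + D.kp * τ)) 0 (-(2 * D.Γ))
  /-- vertical estimate (freezing), where `m > k0`; also to the left of the seam -/
  freeze : ∀ᵐ p : ℝ × ℝ, D.Dom p.1 p.2 → D.k0 < D.m p.1 p.2 →
    OgDiniLe (fun τ => D.E (p.1 + τ) p.2) 0 (-(2 * D.Γ))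

/-- a generic line of speed `kp` : `v = w + kp t` -/
def Gen (w : ℝ) : Prop :=
  ∀ᵐ t : ℝ, D.DomR t (w + D.kp * t) → 0 < D.m t (w + D.kp * t) → D.m t (w + D.kp * t) ≤ D.k0 →
    OgDiniLe (fun τ => D.E (t + τ) (w + D.kp * t + D.kp * τ)) 0 (-(2 * D.Γ))

/-- a width at which freezing can be integrated -/
def GenV (v : ℝ) : Prop :=
  ∀ t T, D.Dom t v → t ≤ T → T < D.t1 → D.k0 < D.m t v → 2 * D.Γ * (T - t) ≤ D.E t v

end OgData

theorem og_def_eqns_cite : True := by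
  have := @OgDiniLe.eq_1
  have := @OgData.DomR.eq_1
  have := @OgData.DomS.eq_1
  have := @OgData.Dom.eq_1
  have := @OgData.C0.eq_1
  have := @OgData.Kx.eq_1
  have := @OgData.G.eq_1
  have := @OgData.Pos.eq_1
  have := @OgData.Gen.eq_1
  have := @OgData.GenV.eq_1
  trivial

end Claimed.Agent.R256
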