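import Claimed.Agent.R256.Og.Def

/-!
# Row 256, unit OG, file 3: almost every line      (architect helper277)

LEAF OG-A3 (all three).  Routes: `Measure.volume_eq_prod`, `Measure.ae_ae_of_ae_prod`, `MeasurePreserving.skew_product` (shear `(t,w) ↦ (t, w + k t)`),
`Measure.prod_swap` / `measurePreserving_swap`, `QuasiMeasurePreserving.ae`, `Real.volume_preimage_mul_left`.
-/

set_option autoImplicit false

namespace Claimed.Agent.R256

open MeasureTheory Filter Topology

theorem og_ae_shear (k : ℝ) (Q : ℝ × ℝ → Prop) (h : ∀ᵐ p : ℝ × ℝ, Q p) :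
    ∀ᵐ w : ℝ, ∀ᵐ t : ℝ, Q (t, w + k * t) := by
  have h1 : MeasurePreserving (fun p : ℝ × ℝ => (p.1, p.2 + k * p.1)) (volume.prod volume) (volume.prod volume) :=
    MeasurePreserving.skew_product (f := id) (g := fun t w : ℝ => w + k * t) (MeasurePreserving.id _)
      (by
        show Measurable fun p : ℝ × ℝ => p.2 + k * p.1
        fun_prop)
      (Filter.Eventually.of_forall fun t => (measurePreserving_add_right volume (k * t)).map_eq)
  have h2 : MeasurePreserving (fun p : ℝ × ℝ => (p.2, p.1 + k * p.2)) (volume.prod volume) (volume.prod volume) :=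
    h1.comp Measure.measurePreserving_swap
  rw [Measure.volume_eq_prod] at h
  exact Measure.ae_ae_of_ae_prod (h2.quasiMeasurePreserving.ae h)

theorem og_ae_vert (Q : ℝ × ℝ → Prop) (h : ∀ᵐ p : ℝ × ℝ, Q p) :
    ∀ᵐ v : ℝ, ∀ᵐ t : ℝ, Q (t, v) := by
  rw [Measure.volume_eq_prod] at h
  exact Measure.ae_ae_of_ae_prod ((Measure.measurePreserving_swap (μ := (volume : Measure ℝ)) (ν := (volume : Measure ℝ))).quasiMeasurePreserving.ae h)

theorem og_ae_affine (k c : ℝ) (hk : k ≠ 0) (Q : ℝ → Prop) (h : ∀ᵐ v : ℝ, Q v) :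
    ∀ᵐ τ : ℝ, Q (c + k * τ) := by
  rw [ae_iff] at h ⊢
  have e : {τ : ℝ | ¬ Q (c + k * τ)} = (fun τ => k * τ) ⁻¹' ((fun v => c + v) ⁻¹' {v | ¬ Q v}) := rfl
  rw [e, Real.volume_preimage_mul_left hk, measure_preimage_add, h, mul_zero]

end Claimed.Agent.R256
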