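import Claimed.Agent.R256.Og.Lip
import Claimed.Agent.R256.Og.Ae

/-!
# Row 256, unit OG, file 11: the other real-variable schemes of Sec. 6.5      (architect helper277)

Paper 06-cylinder-actions.tex l.1094-1137 (integration conventions, short slab) and the way every leaf of the exhaustion closes.  PAPER FREE, Mathlib only.
Backward time `t = 1 - a`; terminal corner `(t,v) = (0,0)`.
`OgSeg` = an excess `E`, a trace `m` (monotone in `t`), a region `RegM` where the motion of speed `k > 0` has surplus `Γ` as long as `m ≤ k0`, a region `RegF ⊇ RegM`, stable under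
vertical continuation up to the time `T`, where freezing has surplus `Γ` as soon as `m > k0`.   (No freezing needed: take `m = 0`, `k0 = 0`.  Only freezing: `m = 1`, `k0 = 0`.)
* `og_sch_bdry`    S5  boundary integration (leaves L14, L15, L17).
* `og_seg_vert`, `og_seg_gen`, `og_seg`   the segment inequality `min (Γ ℓ + E_end) (Γ (T - t)) ≤ E t v`  (same proof as `og_ps`, no bad set: `ψ τ = E (t+τ) (v+x+kτ) - Γ (T-t-τ)`, `og_min_trick`).
* `og_sch_corner`  S1  freezing at small widths, down to the corner (L1, L2).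
* `og_sch_ray`     S2  ray from the corner, with switch to freezing (L3, L10, L11, L12, L16, L18).
* `og_slope_set`, `og_sch_slab`   S3  short slab (L4, L5, L7, L9).
* `og_dini_speed`  changing the speed costs `Lip |k - k'|`.
* `og_bridge`, `og_bridge2`  Rademacher bridges: the forms in which Secs. 5-6 produce (surplus) imply the Dini form along lines
  (`LipschitzOnWith.ae_differentiableWithinAt_of_mem`, `IsOpen`, expansion of `F` at a point of differentiability).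
-/

set_option autoImplicit false

namespace Claimed.Agent.R256

open MeasureTheory Filter Topology

/-- data of a segment argument -/
structure OgSeg where
  Γ : ℝ
  k : ℝ
  k0 : ℝ
  Lip : ℝ
  T : ℝ
  E : ℝ → ℝ → ℝ
  m : ℝ → ℝ → ℝ
  RegM : ℝ → ℝ → Prop
  RegF : ℝ → ℝ → Prop

structure OgSeg.Ok (S : OgSeg) : Prop where
  Γ_nn : 0 ≤ S.Γ
  k_pos : 0 < S.k
  Lip_nn : 0 ≤ S.Lip
  sub : ∀ t v, S.RegM t v → S.RegF t v
  vert : ∀ t v t', S.RegF t v → t ≤ t' → t' ≤ S.T → S.RegF t' v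
  E_nn : ∀ t v, S.RegF t v → 0 ≤ S.E t v
  E_lip : ∀ t v t' v', S.RegF t v → S.RegF t' v' →
    |S.E t v - S.E t' v'| ≤ S.Lip * (|t - t'| + |v - v'|)
  m_mono : ∀ t v t', S.RegF t v → t ≤ t' → t' ≤ S.T → S.m t v ≤ S.m t' v
  move : ∀ᵐ p : ℝ × ℝ, S.RegM p.1 p.2 → S.m p.1 p.2 ≤ S.k0 →
    OgDiniLe (fun τ => S.E (p.1 + τ) (p.2 + S.k * τ)) 0 (-S.Γ)
  freeze : ∀ᵐ p : ℝ × ℝ, S.RegF p.1 p.2 → S.k0 < S.m p.1 p.2 →
    OgDiniLe (fun τ => S.E (p.1 + τ) p.2) 0 (-S.Γ)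

/-- S5 -/
theorem og_sch_bdry (φ : ℝ → ℝ) (a b M Γ : ℝ) (hab : a < b) (hΓ : 0 < Γ) (hM : 0 ≤ M)
    (hL : ∀ x ∈ Set.Icc a b, ∀ y ∈ Set.Icc a b, |φ x - φ y| ≤ M * |x - y|)
    (h0 : φ a = 0) (hnn : 0 ≤ φ b)
    (hd : ∀ᵐ x : ℝ, x ∈ Set.Ioo a b → OgDiniLe φ x (-Γ)) : False := by
  have h := og_lip_dini φ a b M (-Γ) hab.le (by linarith) hL ∅ MeasurableSet.empty
    (by filter_upwards [hd] with x hx h1 _ using hx h1)
  simp only [Set.empty_inter, measure_empty, ENNReal.toReal_zero, mul_zero, add_zero] at h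
  nlinarith [sub_pos.2 hab]

/-- freezing can be integrated at almost every width -/
theorem og_seg_vert (S : OgSeg) (hS : S.Ok) :
    ∀ᵐ v : ℝ, ∀ t, S.RegF t v → t ≤ S.T → S.k0 < S.m t v → S.Γ * (S.T - t) ≤ S.E t v := by
  filter_upwards [og_ae_vert _ hS.freeze] with v hv t hF htT hm
  have hreg : ∀ s ∈ Set.Icc t S.T, S.RegF s v := fun s hs => hS.vert t v s hF hs.1 hs.2
  have hL : ∀ x ∈ Set.Icc t S.T, ∀ y ∈ Set.Icc t S.T, |S.E x v - S.E y v| ≤ S.Lip * |x - y| := by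
    intro x hx y hy
    have h1 := hS.E_lip x v y v (hreg x hx) (hreg y hy)
    rwa [sub_self, abs_zero, add_zero] at h1
  have hd : ∀ᵐ x : ℝ, x ∈ Set.Ioo t S.T → x ∉ (∅ : Set ℝ) → OgDiniLe (fun s => S.E s v) x (-S.Γ) := by
    filter_upwards [hv] with s hs hsI _
    have hsI' : s ∈ Set.Icc t S.T := Set.Ioo_subset_Icc_self hsI
    have h1 := hs (hreg s hsI') (lt_of_lt_of_le hm (hS.m_mono t v s hF hsI'.1 hsI'.2))
    intro ε hε
    filter_upwards [h1 ε hε] with h hh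
    simp only [zero_add, add_zero] at hh
    exact hh
  have key := og_lip_dini (fun s => S.E s v) t S.T S.Lip (-S.Γ) htT (by linarith [hS.Γ_nn, hS.Lip_nn]) hL ∅
    MeasurableSet.empty hd
  simp only [Set.empty_inter, measure_empty, ENNReal.toReal_zero, mul_zero, add_zero] at key
  have h2 := hS.E_nn S.T v (hreg S.T ⟨htT, le_rfl⟩)
  linarith

/-- the segment inequality on almost every parallel line -/
theorem og_seg_gen (S : OgSeg) (hS : S.Ok) :
    ∀ᵐ w : ℝ, ∀ t ℓ, 0 ≤ ℓ → t + ℓ ≤ S.T →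
      (∀ τ, 0 ≤ τ → τ ≤ ℓ → S.RegM (t + τ) (w + S.k * (t + τ))) →
      min (S.Γ * ℓ + S.E (t + ℓ) (w + S.k * (t + ℓ))) (S.Γ * (S.T - t)) ≤ S.E t (w + S.k * t) := by
  have hk := hS.k_pos
  filter_upwards [og_ae_shear S.k _ hS.move] with w hw t ℓ hℓ htT hreg
  obtain ⟨ψ, hψ⟩ : ∃ ψ : ℝ → ℝ, ψ = fun τ => S.E (t + τ) (w + S.k * (t + τ)) - S.Γ * (S.T - t - τ) := ⟨_, rfl⟩
  obtain ⟨M, hM⟩ : ∃ M, M = S.Lip * (1 + S.k) + S.Γ := ⟨_, rfl⟩
  have hM0 : 0 ≤ M := by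
    rw [hM]
    have h1 : 0 ≤ S.Lip * (1 + S.k) := mul_nonneg hS.Lip_nn (by linarith)
    linarith [hS.Γ_nn]
  have hregF : ∀ τ ∈ Set.Icc (0 : ℝ) ℓ, S.RegF (t + τ) (w + S.k * (t + τ)) := fun τ hτ =>
    hS.sub _ _ (hreg τ hτ.1 hτ.2)
  have hψL : ∀ x ∈ Set.Icc (0 : ℝ) ℓ, ∀ y ∈ Set.Icc (0 : ℝ) ℓ, |ψ x - ψ y| ≤ M * |x - y| := by
    intro x hx y hy
    have h2 := hS.E_lip _ _ _ _ (hregF x hx) (hregF y hy)
    have e1 : t + x - (t + y) = x - y := by ring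
    have e2 : w + S.k * (t + x) - (w + S.k * (t + y)) = S.k * (x - y) := by ring
    rw [e1, e2, abs_mul, abs_of_pos hk] at h2
    have e3 : ψ x - ψ y = (S.E (t + x) (w + S.k * (t + x)) - S.E (t + y) (w + S.k * (t + y))) + S.Γ * (x - y) := by
      rw [hψ]
      ring
    rw [e3]
    have h3 : |S.Γ * (x - y)| = S.Γ * |x - y| := by rw [abs_mul, abs_of_nonneg hS.Γ_nn]
    calc |(S.E (t + x) (w + S.k * (t + x)) - S.E (t + y) (w + S.k * (t + y))) + S.Γ * (x - y)|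
        ≤ |S.E (t + x) (w + S.k * (t + x)) - S.E (t + y) (w + S.k * (t + y))| + |S.Γ * (x - y)| := abs_add_le _ _
      _ ≤ S.Lip * (|x - y| + S.k * |x - y|) + S.Γ * |x - y| := by
          rw [h3]
          linarith
      _ = M * |x - y| := by
          rw [hM]
          ring
  have hgen := og_ae_affine 1 t one_ne_zero _ hw
  have hvert := og_ae_affine S.k (w + S.k * t) hk.ne' _ (og_seg_vert S hS)
  have hd : ∀ᵐ x : ℝ, x ∈ Set.Ioo 0 ℓ → x ∉ (∅ : Set ℝ) → OgDiniLe ψ x 0 ∨ 0 ≤ ψ x := by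
    filter_upwards [hgen, hvert] with τ hg hv hτ _
    have hτI : τ ∈ Set.Icc (0 : ℝ) ℓ := Set.Ioo_subset_Icc_self hτ
    rw [one_mul] at hg
    rcases le_or_gt (S.m (t + τ) (w + S.k * (t + τ))) S.k0 with hm | hm
    · left
      have h1 := hg (hreg τ hτI.1 hτI.2) hm
      intro ε hε
      filter_upwards [h1 ε hε] with h hh
      simp only [zero_add, add_zero, mul_zero] at hh
      have e1 : t + (τ + h) = t + τ + h := by ring
      have e2 : w + S.k * (t + τ + h) = w + S.k * (t + τ) + S.k * h := by ring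
      rw [hψ]
      show S.E (t + (τ + h)) (w + S.k * (t + (τ + h))) - S.Γ * (S.T - t - (τ + h)) -
        (S.E (t + τ) (w + S.k * (t + τ)) - S.Γ * (S.T - t - τ)) ≤ (0 + ε) * h
      rw [e1, e2]
      linarith
    · right
      have e : w + S.k * t + S.k * τ = w + S.k * (t + τ) := by ring
      rw [e] at hv
      have h1 := hv (t + τ) (hregF τ hτI) (by linarith [hτ.2]) hm
      rw [hψ]
      show 0 ≤ S.E (t + τ) (w + S.k * (t + τ)) - S.Γ * (S.T - t - τ)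
      linarith
  have key := og_min_trick ψ 0 ℓ M hℓ hM0 hψL ∅ MeasurableSet.empty hd
  simp only [Set.empty_inter, measure_empty, ENNReal.toReal_zero, mul_zero, sub_zero] at key
  rw [hψ] at key
  simp only [add_zero, sub_zero] at key
  rcases le_total (S.E (t + ℓ) (w + S.k * (t + ℓ)) - S.Γ * (S.T - t - ℓ)) 0 with h | h
  · rw [min_eq_left h] at key
    refine min_le_of_left_le ?_
    linarith
  · rw [min_eq_right h] at key
    refine min_le_of_right_le ?_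
    linarith

/-- the segment inequality -/
theorem og_seg (S : OgSeg) (hS : S.Ok) (t v ℓ δ : ℝ) (hℓ : 0 ≤ ℓ) (hδ : 0 < δ) (hT : t + ℓ ≤ S.T)
    (hreg : ∀ τ x, 0 ≤ τ → τ ≤ ℓ → |x| ≤ δ → S.RegM (t + τ) (v + x + S.k * τ)) :
    min (S.Γ * ℓ + S.E (t + ℓ) (v + S.k * ℓ)) (S.Γ * (S.T - t)) ≤ S.E t v := by
  have hgen := og_seg_gen S hS
  have hL := hS.Lip_nn
  refine le_of_forall_pos_le_add fun ε hε => ?_
  have hden : 0 < 2 * (S.Lip + 1) := by linarith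
  obtain ⟨η, hη0, hηδ, hηε⟩ : ∃ η : ℝ, 0 < η ∧ η ≤ δ ∧ η ≤ ε / (2 * (S.Lip + 1)) :=
    ⟨min δ (ε / (2 * (S.Lip + 1))), lt_min hδ (div_pos hε hden), min_le_left _ _, min_le_right _ _⟩
  obtain ⟨w, hw, hP⟩ : ∃ w ∈ Set.Ioo (v - S.k * t - η) (v - S.k * t + η), ∀ t ℓ, 0 ≤ ℓ → t + ℓ ≤ S.T →
      (∀ τ, 0 ≤ τ → τ ≤ ℓ → S.RegM (t + τ) (w + S.k * (t + τ))) →
      min (S.Γ * ℓ + S.E (t + ℓ) (w + S.k * (t + ℓ))) (S.Γ * (S.T - t)) ≤ S.E t (w + S.k * t) := by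
    by_contra hne
    have h0 : volume (Set.Ioo (v - S.k * t - η) (v - S.k * t + η)) = 0 :=
      measure_mono_null (fun w hw hP => hne ⟨w, hw, hP⟩) (ae_iff.1 hgen)
    rw [Real.volume_Ioo, ENNReal.ofReal_eq_zero] at h0
    linarith
  obtain ⟨x, hxdef⟩ : ∃ x : ℝ, x = w - (v - S.k * t) := ⟨_, rfl⟩
  have hw' : w = v + x - S.k * t := by rw [hxdef]; ring
  have hxη : |x| ≤ η := by
    rw [hxdef, abs_le]
    constructor <;> linarith [hw.1, hw.2]
  have hxδ : |x| ≤ δ := hxη.trans hηδ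
  have h0δ : |(0 : ℝ)| ≤ δ := by rw [abs_zero]; exact hδ.le
  have hmain := hP t ℓ hℓ hT (fun τ h0 h1 => by
    have h2 := hreg τ x h0 h1 hxδ
    have h3 : w + S.k * (t + τ) = v + x + S.k * τ := by rw [hw']; ring
    rw [h3]
    exact h2)
  have e1 : w + S.k * (t + ℓ) = v + x + S.k * ℓ := by rw [hw']; ring
  have e2 : w + S.k * t = v + x := by rw [hw']; ring
  rw [e1, e2] at hmain
  have r1 : S.RegF (t + ℓ) (v + x + S.k * ℓ) := hS.sub _ _ (hreg ℓ x hℓ le_rfl hxδ)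
  have r2 : S.RegF (t + ℓ) (v + S.k * ℓ) := by
    have h := hS.sub _ _ (hreg ℓ 0 hℓ le_rfl h0δ)
    rwa [add_zero] at h
  have r3 : S.RegF t (v + x) := by
    have h := hS.sub _ _ (hreg 0 x le_rfl hℓ hxδ)
    rwa [add_zero, mul_zero, add_zero] at h
  have r4 : S.RegF t v := by
    have h := hS.sub _ _ (hreg 0 0 le_rfl hℓ h0δ)
    rwa [add_zero, mul_zero, add_zero, add_zero] at h
  have l1 := hS.E_lip _ _ _ _ r2 r1
  have l2 := hS.E_lip _ _ _ _ r3 r4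
  have a1 : |v + S.k * ℓ - (v + x + S.k * ℓ)| = |x| := by
    rw [show v + S.k * ℓ - (v + x + S.k * ℓ) = -x by ring, abs_neg]
  have a2 : |v + x - v| = |x| := by rw [add_sub_cancel_left]
  rw [sub_self, abs_zero, zero_add, a1] at l1
  rw [sub_self, abs_zero, zero_add, a2] at l2
  have l1' := (abs_le.1 l1).2
  have l2' := (abs_le.1 l2).2
  have hxε : |x| * (2 * (S.Lip + 1)) ≤ ε := (le_div_iff₀ hden).1 (hxη.trans hηε)
  have hx0 := abs_nonneg x
  have hsmall : 2 * (S.Lip * |x|) ≤ ε := by nlinarith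
  have hLx : 0 ≤ S.Lip * |x| := mul_nonneg hL hx0
  rcases min_le_iff.1 hmain with h | h
  · exact min_le_iff.2 (Or.inl (by linarith))
  · exact min_le_iff.2 (Or.inr (by linarith))

/-- S1 -/
theorem og_sch_corner (S : OgSeg) (hS : S.Ok) (hΓ : 0 < S.Γ) (hT : 0 < S.T) (κ : ℝ) (hκ : 0 < κ)
    (hF : ∀ t v, 0 < t → t ≤ S.T → 0 < v → v < κ * t → S.RegF t v ∧ S.k0 < S.m t v)
    (hcorner : ∀ ε : ℝ, 0 < ε → ∃ ρ : ℝ, 0 < ρ ∧ ∀ t v, 0 < t → t < ρ → 0 < v → v < κ * t →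
      S.E t v < ε) : False := by
  obtain ⟨ρ, hρ, hE⟩ := hcorner (S.Γ * S.T / 2) (by positivity)
  set t0 : ℝ := min ρ S.T / 2 with ht0
  have hmin : 0 < min ρ S.T := lt_min hρ hT
  have ht0pos : 0 < t0 := by positivity
  have ht0ρ : t0 < ρ := by
    have := min_le_left ρ S.T
    rw [ht0]
    linarith
  have ht0T : t0 ≤ S.T / 2 := by
    have := min_le_right ρ S.T
    rw [ht0]
    linarith
  have hae := og_seg_vert S hS
  -- a good width in `(0, κ t0)`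
  have hpos : 0 < volume (Set.Ioo (0 : ℝ) (κ * t0)) := by
    rw [Real.volume_Ioo]
    simpa using mul_pos hκ ht0pos
  obtain ⟨v, hv, hgood⟩ : ∃ v ∈ Set.Ioo (0 : ℝ) (κ * t0),
      ∀ t, S.RegF t v → t ≤ S.T → S.k0 < S.m t v → S.Γ * (S.T - t) ≤ S.E t v := by
    by_contra hcon
    push Not at hcon
    have hsub : Set.Ioo (0 : ℝ) (κ * t0) ⊆
        {v : ℝ | ¬ ∀ t, S.RegF t v → t ≤ S.T → S.k0 < S.m t v → S.Γ * (S.T - t) ≤ S.E t v} := by
      intro v hv hall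
      obtain ⟨t, h1, h2, h3, h4⟩ := hcon v hv
      exact absurd (hall t h1 h2 h3) (not_le.2 h4)
    have h0 : volume (Set.Ioo (0 : ℝ) (κ * t0)) = 0 := measure_mono_null hsub (ae_iff.1 hae)
    exact hpos.ne' h0
  obtain ⟨hR, hm⟩ := hF t0 v ht0pos (by linarith) hv.1 hv.2
  have h1 := hgood t0 hR (by linarith) hm
  have h2 := hE t0 v ht0pos ht0ρ hv.1 hv.2
  have h3 : S.Γ * (S.T / 2) ≤ S.Γ * (S.T - t0) := mul_le_mul_of_nonneg_left (by linarith) hΓ.le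
  linarith

/-- S2 -/
theorem og_sch_ray (S : OgSeg) (hS : S.Ok) (hΓ : 0 < S.Γ) (hT : 0 < S.T) (θ : ℝ) (hθ : 0 < θ)
    (hM : ∀ t v, 0 < t → t ≤ S.T → |v - S.k * t| ≤ θ * t → S.RegM t v)
    (hcorner : ∀ ε : ℝ, 0 < ε → ∃ t, 0 < t ∧ t < ε ∧ S.E t (S.k * t) < ε) : False := by
  obtain ⟨t, ht0, htε, hE⟩ := hcorner (min (S.T / 2) (S.Γ * S.T / 2)) (lt_min (by positivity) (by positivity))
  have htT : t < S.T / 2 := htε.trans_le (min_le_left _ _)
  have hE' : S.E t (S.k * t) < S.Γ * S.T / 2 := hE.trans_le (min_le_right _ _)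
  have hreg : ∀ τ x, 0 ≤ τ → τ ≤ S.T - t → |x| ≤ θ * t → S.RegM (t + τ) (S.k * t + x + S.k * τ) := by
    intro τ x h0 h1 hx
    refine hM _ _ (by linarith) (by linarith) ?_
    have e : S.k * t + x + S.k * τ - S.k * (t + τ) = x := by ring
    rw [e]
    refine hx.trans (mul_le_mul_of_nonneg_left (by linarith) hθ.le)
  have h := og_seg S hS t (S.k * t) (S.T - t) (θ * t) (by linarith) (by positivity) (by linarith) hreg
  have hR : S.RegM (t + (S.T - t)) (S.k * t + S.k * (S.T - t)) := by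
    have := hreg (S.T - t) 0 (by linarith) le_rfl (by simpa using (mul_pos hθ ht0).le)
    simpa using this
  have hnn := hS.E_nn _ _ (hS.sub _ _ hR)
  have h3 : S.Γ * (S.T / 2) ≤ S.Γ * (S.T - t) := mul_le_mul_of_nonneg_left (by linarith) hΓ.le
  have h4 : S.Γ * (S.T - t) ≤ min (S.Γ * (S.T - t) + S.E (t + (S.T - t)) (S.k * t + S.k * (S.T - t))) (S.Γ * (S.T - t)) :=
    le_min (by linarith) le_rfl
  linarith

/-- a derivative bounds the right difference quotients -/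
theorem og_dini_of_deriv (φ : ℝ → ℝ) (x d c : ℝ) (hφ : HasDerivAt φ d x) (hdc : d ≤ c) :
    OgDiniLe φ x c := by
  intro ε hε
  have h1 : Tendsto (fun h : ℝ => h⁻¹ * (φ (x + h) - φ x)) (𝓝[>] 0) (𝓝 d) := by
    have := hφ.tendsto_slope_zero_right
    simpa using this
  have h2 : ∀ᶠ h in 𝓝[>] (0 : ℝ), h⁻¹ * (φ (x + h) - φ x) < c + ε :=
    h1.eventually (Iio_mem_nhds (by linarith))
  filter_upwards [h2, self_mem_nhdsWithin] with t ht ht0
  have ht0' : (0 : ℝ) < t := ht0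
  have := (inv_mul_le_iff₀ ht0').1 ht.le
  linarith

/-- an integrated lower slope produces many widths with a large derivative -/
theorem og_slope_set (R : ℝ → ℝ) (u ς C μ γ : ℝ) (hς : 0 < ς) (hγ : 0 < γ)
    (hlip : ∀ x ∈ Set.Icc u (u + ς), ∀ y ∈ Set.Icc u (u + ς), |R x - R y| ≤ C * |x - y|)
    (h0 : R u = 0)
    (hslope : ∀ ε : ℝ, 0 < ε → ∀ᶠ z in 𝓝[>] (0 : ℝ), (μ - ε) * z ≤ R (u + z)) :
    ∀ δ : ℝ, 0 < δ → 0 < volume {v : ℝ | u < v ∧ v < u + δ ∧ μ - γ ≤ deriv R v} := by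
  intro δ hδ
  rw [pos_iff_ne_zero]
  intro hzero
  -- a small `z`
  have hev : ∀ᶠ z in 𝓝[>] (0 : ℝ), z < min δ ς :=
    nhdsWithin_le_nhds (Iio_mem_nhds (lt_min hδ hς))
  obtain ⟨z, hz1, hz2, hz0⟩ := ((hslope (γ / 2) (by linarith)).and (hev.and self_mem_nhdsWithin)).exists
  have hz0' : (0 : ℝ) < z := hz0
  have hzδ : z < δ := hz2.trans_le (min_le_left _ _)
  have hzς : z < ς := hz2.trans_le (min_le_right _ _)
  have hsub : Set.Icc u (u + z) ⊆ Set.Icc u (u + ς) := Set.Icc_subset_Icc le_rfl (by linarith)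
  obtain ⟨M, hM⟩ : ∃ M : ℝ, M = max (max C (μ - γ)) 0 := ⟨_, rfl⟩
  have hCM : C ≤ M := by rw [hM]; exact (le_max_left _ _).trans (le_max_left _ _)
  have hcM : μ - γ ≤ M := by rw [hM]; exact (le_max_right _ _).trans (le_max_left _ _)
  have hM0 : 0 ≤ M := by rw [hM]; exact le_max_right _ _
  have hL : ∀ x ∈ Set.Icc u (u + z), ∀ y ∈ Set.Icc u (u + z), |R x - R y| ≤ M * |x - y| :=
    fun x hx y hy => (hlip x (hsub hx) y (hsub hy)).trans
      (mul_le_mul_of_nonneg_right hCM (abs_nonneg _))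
  have hLip : LipschitzOnWith ⟨M, hM0⟩ R (Set.uIcc u (u + z)) := by
    rw [Set.uIcc_of_le (by linarith)]
    apply LipschitzOnWith.of_dist_le_mul
    intro x hx y hy
    rw [Real.dist_eq, Real.dist_eq]
    exact hL x hx y hy
  have hdiff := hLip.absolutelyContinuousOnInterval.ae_differentiableAt
  have hnot : ∀ᵐ v : ℝ, ¬ (u < v ∧ v < u + δ ∧ μ - γ ≤ deriv R v) := by
    rw [ae_iff]
    simpa using hzero
  have hd : ∀ᵐ x : ℝ, x ∈ Set.Ioo u (u + z) → x ∉ (∅ : Set ℝ) → OgDiniLe R x (μ - γ) := by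
    filter_upwards [hdiff, hnot] with x hx1 hx2 hx _
    have hxI : x ∈ Set.uIcc u (u + z) := by
      rw [Set.uIcc_of_le (by linarith)]; exact Set.Ioo_subset_Icc_self hx
    refine og_dini_of_deriv R x _ _ (hx1 hxI).hasDerivAt ?_
    by_contra hcon
    exact hx2 ⟨hx.1, by linarith [hx.2], (not_le.1 hcon).le⟩
  have h := og_lip_dini R u (u + z) M (μ - γ) (by linarith) hcM hL ∅ MeasurableSet.empty hd
  simp only [Set.empty_inter, measure_empty, ENNReal.toReal_zero, mul_zero, add_zero, h0] at h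
  nlinarith

/-- S3: short slab behind an equality point `(tj, uj)`.  `lam` = admissible right excess per unit of time, `thr` = freezing threshold (may depend on time), `γ` = strict margin. -/
theorem og_sch_slab (E m : ℝ → ℝ → ℝ) (R thr : ℝ → ℝ) (Γ Lip C tj uj τ0 ς0 lam μ γ : ℝ)
    (hΓ : 0 < Γ) (hLip : 0 ≤ Lip) (hτ0 : 0 < τ0) (hς0 : 0 < ς0) (hlam : 0 < lam) (hγ : 0 < γ)
    (hγμ : γ < μ)
    (E_nn : ∀ t v, tj ≤ t → t ≤ tj + τ0 → uj ≤ v → v ≤ uj + ς0 → 0 ≤ E t v)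
    (E_lip : ∀ t v t' v', tj ≤ t → t ≤ tj + τ0 → uj ≤ v → v ≤ uj + ς0 → tj ≤ t' → t' ≤ tj + τ0 →
      uj ≤ v' → v' ≤ uj + ς0 → |E t v - E t' v'| ≤ Lip * (|t - t'| + |v - v'|))
    (E0 : E tj uj = 0)
    (R_lip : ∀ x ∈ Set.Icc uj (uj + ς0), ∀ y ∈ Set.Icc uj (uj + ς0), |R x - R y| ≤ C * |x - y|)
    (R0 : R uj = 0)
    (R_slope : ∀ ε : ℝ, 0 < ε → ∀ᶠ z in 𝓝[>] (0 : ℝ), (μ - ε) * z ≤ R (uj + z))
    (trace : ∀ᵐ p : ℝ × ℝ, tj < p.1 → p.1 < tj + τ0 → uj < p.2 → p.2 < uj + ς0 →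
      p.2 - uj < lam * (p.1 - tj) → deriv R p.2 ≤ m p.1 p.2)
    (freeze : ∀ᵐ p : ℝ × ℝ, tj < p.1 → p.1 < tj + τ0 → uj < p.2 → p.2 < uj + ς0 →
      p.2 - uj < lam * (p.1 - tj) → 0 < m p.1 p.2 → thr p.1 ≤ m p.1 p.2 →
      OgDiniLe (fun τ => E (p.1 + τ) p.2) 0 (-Γ))
    (hthr : ∀ η : ℝ, 0 < η → ∀ᶠ τ in 𝓝[>] (0 : ℝ), ∃ B : Set ℝ, MeasurableSet B ∧
      (volume (B ∩ Set.Icc tj (tj + τ))).toReal ≤ η * τ ∧
      ∀ t ∈ Set.Icc tj (tj + τ), t ∉ B → thr t ≤ μ - γ) : False := by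
  -- parameters
  obtain ⟨θ, hθ0, hθ1, hθ2⟩ : ∃ θ : ℝ, 0 < θ ∧ θ / lam ≤ 1 / 4 ∧ Lip * (θ * (1 / lam + 1)) ≤ Γ / 8 := by
    have hpos : 0 < (Lip + 1) * (1 / lam + 1) := by positivity
    refine ⟨min (lam / 4) (Γ / 8 / ((Lip + 1) * (1 / lam + 1))), lt_min (by positivity) (by positivity), ?_, ?_⟩
    · rw [div_le_iff₀ hlam]
      calc min (lam / 4) (Γ / 8 / ((Lip + 1) * (1 / lam + 1))) ≤ lam / 4 := min_le_left _ _
        _ = 1 / 4 * lam := by ring
    · have h1 : min (lam / 4) (Γ / 8 / ((Lip + 1) * (1 / lam + 1))) ≤ Γ / 8 / ((Lip + 1) * (1 / lam + 1)) := min_le_right _ _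
      have h2 : min (lam / 4) (Γ / 8 / ((Lip + 1) * (1 / lam + 1))) * ((Lip + 1) * (1 / lam + 1)) ≤ Γ / 8 :=
        (le_div_iff₀ hpos).1 h1
      have h3 : 0 < min (lam / 4) (Γ / 8 / ((Lip + 1) * (1 / lam + 1))) := lt_min (by positivity) (by positivity)
      have h4 : 0 < 1 / lam + 1 := by positivity
      nlinarith [mul_pos h3 h4]
  obtain ⟨η, hη0, hη1⟩ : ∃ η : ℝ, 0 < η ∧ (Lip + Γ) * η ≤ Γ / 8 := by
    refine ⟨Γ / 8 / (Lip + Γ), by positivity, ?_⟩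
    have : Lip + Γ ≠ 0 := by positivity
    field_simp
    exact le_rfl
  -- the time
  have hev1 : ∀ᶠ τ in 𝓝[>] (0 : ℝ), τ < τ0 := nhdsWithin_le_nhds (Iio_mem_nhds hτ0)
  have hev2 : ∀ᶠ τ in 𝓝[>] (0 : ℝ), τ < ς0 / θ := nhdsWithin_le_nhds (Iio_mem_nhds (by positivity))
  obtain ⟨τ, ⟨B, hBm, hBv, hBt⟩, hτ1, hτ2, hτ3⟩ := ((hthr η hη0).and (hev1.and (hev2.and self_mem_nhdsWithin))).exists
  have hτ : (0 : ℝ) < τ := hτ3
  have hθτ : θ * τ < ς0 := by
    rw [lt_div_iff₀ hθ0] at hτ2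
    linarith
  -- the width
  have hpos := og_slope_set R uj ς0 C μ γ hς0 hγ R_lip R0 R_slope (θ * τ) (by positivity)
  have hae := og_ae_vert _ (trace.and freeze)
  obtain ⟨v, ⟨hv1, hv2, hv3⟩, hv4⟩ : ∃ v, v ∈ {v : ℝ | uj < v ∧ v < uj + θ * τ ∧ μ - γ ≤ deriv R v} ∧
      ∀ᵐ t : ℝ, (tj < t → t < tj + τ0 → uj < v → v < uj + ς0 → v - uj < lam * (t - tj) → deriv R v ≤ m t v) ∧
        (tj < t → t < tj + τ0 → uj < v → v < uj + ς0 → v - uj < lam * (t - tj) → 0 < m t v → thr t ≤ m t v →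
          OgDiniLe (fun τ => E (t + τ) v) 0 (-Γ)) := by
    by_contra hcon
    have : volume {v : ℝ | uj < v ∧ v < uj + θ * τ ∧ μ - γ ≤ deriv R v} = 0 := by
      refine measure_mono_null (fun v hv => ?_) (ae_iff.1 hae)
      exact fun h => hcon ⟨v, hv, h⟩
    rw [this] at hpos
    exact lt_irrefl _ hpos
  obtain ⟨t0, ht0⟩ : ∃ t0 : ℝ, t0 = tj + (v - uj) / lam := ⟨_, rfl⟩
  have hvu : 0 < v - uj := by linarith
  have hd0 : 0 < (v - uj) / lam := by positivity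
  have hd1 : (v - uj) / lam ≤ τ / 4 := by
    have h1 : (v - uj) / lam ≤ θ * τ / lam := div_le_div_of_nonneg_right (by linarith) hlam.le
    have h2 : θ * τ / lam = θ / lam * τ := by ring
    rw [h2] at h1
    nlinarith
  have hvς : v < uj + ς0 := by linarith
  have key := og_lip_dini (fun t => E t v) t0 (tj + τ) Lip (-Γ) (by rw [ht0]; linarith) (by linarith)
    (by
      intro x hx y hy
      have := E_lip x v y v (by rw [ht0] at hx; linarith [hx.1]) (by linarith [hx.2]) hv1.le hvς.le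
        (by rw [ht0] at hy; linarith [hy.1]) (by linarith [hy.2]) hv1.le hvς.le
      simpa using this) B hBm
    (by
      filter_upwards [hv4] with x hx hxI hxB
      have hx1 : tj < x := by rw [ht0] at hxI; linarith [hxI.1]
      have hx2 : x < tj + τ0 := by linarith [hxI.2]
      have hx3 : v - uj < lam * (x - tj) := by
        have h1 : (v - uj) / lam < x - tj := by rw [ht0] at hxI; linarith [hxI.1]
        rw [div_lt_iff₀ hlam] at h1
        linarith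
      have hm := hx.1 hx1 hx2 hv1 hvς hx3
      have hthr' := hBt x ⟨hx1.le, by linarith [hxI.2]⟩ hxB
      have hfr := hx.2 hx1 hx2 hv1 hvς hx3 (by linarith) (by linarith)
      intro ε hε
      filter_upwards [hfr ε hε] with h hh
      simpa using hh)
  have hBle : (volume (B ∩ Set.Icc t0 (tj + τ))).toReal ≤ η * τ := by
    refine le_trans (ENNReal.toReal_mono ?_ (measure_mono ?_)) hBv
    · exact ne_of_lt (lt_of_le_of_lt (measure_mono Set.inter_subset_right) measure_Icc_lt_top)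
    · exact Set.inter_subset_inter_right _ (Set.Icc_subset_Icc (by rw [ht0]; linarith) le_rfl)
  have hE0 : E t0 v ≤ Lip * ((v - uj) / lam + (v - uj)) := by
    have := E_lip t0 v tj uj (by rw [ht0]; linarith) (by rw [ht0]; linarith) hv1.le hvς.le le_rfl (by linarith) le_rfl (by linarith)
    rw [E0, sub_zero] at this
    have e1 : |t0 - tj| = (v - uj) / lam := by
      rw [ht0, add_sub_cancel_left, abs_of_pos hd0]
    rw [e1, abs_of_pos hvu] at this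
    exact (le_abs_self _).trans this
  have hEn := E_nn (tj + τ) v (by linarith) (by linarith) hv1.le hvς.le
  have h5 : Lip * ((v - uj) / lam + (v - uj)) ≤ Γ / 8 * τ := by
    have h6 : (v - uj) / lam + (v - uj) ≤ θ * τ * (1 / lam + 1) := by
      have : (v - uj) / lam + (v - uj) = (v - uj) * (1 / lam + 1) := by ring
      rw [this]
      exact mul_le_mul_of_nonneg_right (by linarith) (by positivity)
    calc Lip * ((v - uj) / lam + (v - uj)) ≤ Lip * (θ * τ * (1 / lam + 1)) := mul_le_mul_of_nonneg_left h6 hLip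
      _ = Lip * (θ * (1 / lam + 1)) * τ := by ring
      _ ≤ Γ / 8 * τ := mul_le_mul_of_nonneg_right hθ2 hτ.le
  have h7 : (Lip - -Γ) * (volume (B ∩ Set.Icc t0 (tj + τ))).toReal ≤ Γ / 8 * τ := by
    calc (Lip - -Γ) * (volume (B ∩ Set.Icc t0 (tj + τ))).toReal ≤ (Lip - -Γ) * (η * τ) :=
          mul_le_mul_of_nonneg_left hBle (by linarith)
      _ = (Lip + Γ) * η * τ := by ring
      _ ≤ Γ / 8 * τ := mul_le_mul_of_nonneg_right hη1 hτ.le
  have h8 : -Γ * (tj + τ - t0) ≤ -Γ * (3 / 4 * τ) := by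
    have : 3 / 4 * τ ≤ tj + τ - t0 := by rw [ht0]; linarith
    nlinarith
  have key' : E (tj + τ) v - E t0 v ≤ -Γ * (tj + τ - t0) + (Lip - -Γ) * (volume (B ∩ Set.Icc t0 (tj + τ))).toReal := key
  nlinarith

/-- changing the speed -/
theorem og_dini_speed (E : ℝ → ℝ → ℝ) (t v k k' c Lip : ℝ)
    (hlip : ∀ᶠ τ in 𝓝[>] (0 : ℝ), |E (t + τ) (v + k * τ) - E (t + τ) (v + k' * τ)| ≤ Lip * |k * τ - k' * τ|)
    (h : OgDiniLe (fun τ => E (t + τ) (v + k * τ)) 0 c) :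
    OgDiniLe (fun τ => E (t + τ) (v + k' * τ)) 0 (c + Lip * |k - k'|) := by
  intro ε hε
  filter_upwards [hlip, h ε hε, self_mem_nhdsWithin] with τ h1 h2 h3
  have hτ : (0 : ℝ) < τ := h3
  simp only [zero_add, mul_zero, add_zero] at h2 ⊢
  have e : |k * τ - k' * τ| = |k - k'| * τ := by
    rw [← sub_mul, abs_mul, abs_of_pos hτ]
  rw [e] at h1
  have h4 := (abs_le.1 h1).1
  nlinarith

/-- first order expansion along a curve, to the right -/
theorem og_S6_exp (φ : ℝ → ℝ) (d : ℝ) (h : HasDerivAt φ d 0) (ε : ℝ) (hε : 0 < ε) :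
    ∀ᶠ h in 𝓝[>] (0 : ℝ), |φ h - φ 0 - d * h| ≤ ε * h := by
  have h1 := (hasDerivAt_iff_isLittleO_nhds_zero.1 h).def hε
  filter_upwards [nhdsWithin_le_nhds h1, self_mem_nhdsWithin] with x hx hx0
  have hx0' : (0 : ℝ) < x := hx0
  simp only [zero_add, smul_eq_mul, Real.norm_eq_abs, abs_of_pos hx0'] at hx
  rw [mul_comm d x]
  exact hx

/-- the derivative of `F` along an affine curve through `p` -/
theorem og_S6_curve (F : ℝ × ℝ → ℝ) (p : ℝ × ℝ) (L : ℝ × ℝ →L[ℝ] ℝ) (hL : HasFDerivAt F L p) (a b : ℝ) :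
    HasDerivAt (fun h : ℝ => F (p.1 + a * h, p.2 + b * h)) (L (a, b)) 0 := by
  have hc : HasDerivAt (fun h : ℝ => ((p.1 + a * h, p.2 + b * h) : ℝ × ℝ)) (a, b) 0 := by
    have h1 : HasDerivAt (fun h : ℝ => p.1 + a * h) a 0 := by
      simpa using ((hasDerivAt_id (0 : ℝ)).const_mul a).const_add p.1
    have h2 : HasDerivAt (fun h : ℝ => p.2 + b * h) b 0 := by
      simpa using ((hasDerivAt_id (0 : ℝ)).const_mul b).const_add p.2
    exact h1.prodMk h2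
  have hp : ((p.1 + a * 0, p.2 + b * 0) : ℝ × ℝ) = p := by simp
  have hL' : HasFDerivAt F L ((fun h : ℝ => ((p.1 + a * h, p.2 + b * h) : ℝ × ℝ)) 0) := by
    show HasFDerivAt F L (p.1 + a * 0, p.2 + b * 0)
    rw [hp]
    exact hL
  exact hL'.comp_hasDerivAt (0 : ℝ) hc

/-- Rademacher on an open set of the plane -/
theorem og_S6_rad (F : ℝ × ℝ → ℝ) (Ω : Set (ℝ × ℝ)) (hΩ : IsOpen Ω) (C : NNReal) (hF : LipschitzOnWith C F Ω) :
    ∀ᵐ p : ℝ × ℝ, p ∈ Ω → DifferentiableAt ℝ F p := by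
  filter_upwards [hF.ae_differentiableWithinAt_of_mem (μ := volume)] with p hp hpΩ
  exact (hp hpΩ).differentiableAt (hΩ.mem_nhds hpΩ)

/-- an eventual upper bound of the right increments bounds the derivative -/
theorem og_S6_le (φ : ℝ → ℝ) (d K : ℝ) (h : HasDerivAt φ d 0)
    (hb : ∀ ε : ℝ, 0 < ε → ∀ᶠ h in 𝓝[>] (0 : ℝ), φ h - φ 0 ≤ (K + ε) * h) : d ≤ K := by
  refine le_of_forall_pos_le_add fun ε hε => ?_
  obtain ⟨x, h1, h2, h3⟩ := ((og_S6_exp φ d h (ε / 2) (by positivity)).and ((hb (ε / 2) (by positivity)).and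
    self_mem_nhdsWithin)).exists
  have hx : (0 : ℝ) < x := h3
  have h4 := (abs_le.1 h1).1
  have : d * x ≤ (K + ε) * x := by nlinarith
  exact le_of_mul_le_mul_right this hx

/-- the Dini form from the derivative -/
theorem og_S6_dini (φ : ℝ → ℝ) (d c : ℝ) (h : HasDerivAt φ d 0) (hd : d ≤ c) : OgDiniLe φ 0 c := by
  intro ε hε
  filter_upwards [og_S6_exp φ d h ε hε, self_mem_nhdsWithin] with x h1 h3
  have hx : (0 : ℝ) < x := h3
  have h4 := (abs_le.1 h1).2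
  rw [zero_add]
  nlinarith

/-- Rademacher bridge, root form: root `(t, v)`, child `(t - h, v)`, moved name `(t, v + k h)` -/
theorem og_bridge (F : ℝ × ℝ → ℝ) (Ω : Set (ℝ × ℝ)) (hΩ : IsOpen Ω) (C : NNReal)
    (hF : LipschitzOnWith C F Ω) (k c : ℝ)
    (hroot : ∀ᵐ p : ℝ × ℝ, p ∈ Ω → ∀ ε : ℝ, 0 < ε → ∀ᶠ h in 𝓝[>] (0 : ℝ),
      F (p.1, p.2 + k * h) - F (p.1 - h, p.2) ≤ (c + ε) * h) :
    ∀ᵐ p : ℝ × ℝ, p ∈ Ω → OgDiniLe (fun τ => F (p.1 + τ, p.2 + k * τ)) 0 c := by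
  filter_upwards [og_S6_rad F Ω hΩ C hF, hroot] with p hd hr hp
  have hL := (hd hp).hasFDerivAt
  have h1 := og_S6_curve F p _ hL 0 k
  have h2 := og_S6_curve F p _ hL (-1) 0
  have h3 := og_S6_curve F p _ hL 1 k
  have e3 : (fun h : ℝ => F (p.1 + 1 * h, p.2 + k * h)) = fun τ => F (p.1 + τ, p.2 + k * τ) := by
    funext h; rw [one_mul]
  rw [e3] at h3
  refine og_S6_dini _ _ c h3 ?_
  have h12 := h1.sub h2
  have elin : fderiv ℝ F p (1, k) = fderiv ℝ F p (0, k) - fderiv ℝ F p (-1, 0) := by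
    rw [← map_sub]
    congr 1
    ext <;> simp
  rw [elin]
  refine og_S6_le _ _ c h12 fun ε hε => ?_
  filter_upwards [hr hp ε hε] with h hh
  simp only [Pi.sub_apply, zero_mul, add_zero, mul_zero, neg_mul, one_mul, neg_zero, sub_self, sub_zero]
  have : p.1 + -h = p.1 - h := by ring
  rw [this]
  exact hh

/-- Rademacher bridge, two rates at the same root: time rate `≥ A` (forward time = `t` decreasing), width rate `≤ B` -/
theorem og_bridge2 (F : ℝ × ℝ → ℝ) (Ω : Set (ℝ × ℝ)) (hΩ : IsOpen Ω) (C : NNReal)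
    (hF : LipschitzOnWith C F Ω) (k : ℝ) (hk : 0 ≤ k) (A B : ℝ × ℝ → ℝ)
    (htime : ∀ᵐ p : ℝ × ℝ, p ∈ Ω → ∀ ε : ℝ, 0 < ε → ∀ᶠ h in 𝓝[>] (0 : ℝ),
      (A p - ε) * h ≤ F (p.1 - h, p.2) - F p)
    (hwidth : ∀ᵐ p : ℝ × ℝ, p ∈ Ω → ∀ ε : ℝ, 0 < ε → ∀ᶠ h in 𝓝[>] (0 : ℝ),
      F (p.1, p.2 + h) - F p ≤ (B p + ε) * h) :
    ∀ᵐ p : ℝ × ℝ, p ∈ Ω → OgDiniLe (fun τ => F (p.1 + τ, p.2 + k * τ)) 0 (-(A p) + k * B p) := by
  filter_upwards [og_S6_rad F Ω hΩ C hF, htime, hwidth] with p hd ht hw hp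
  have hL := (hd hp).hasFDerivAt
  have h1 := og_S6_curve F p _ hL 0 1
  have h2 := og_S6_curve F p _ hL (-1) 0
  have h3 := og_S6_curve F p _ hL 1 k
  have e3 : (fun h : ℝ => F (p.1 + 1 * h, p.2 + k * h)) = fun τ => F (p.1 + τ, p.2 + k * τ) := by
    funext h; rw [one_mul]
  rw [e3] at h3
  refine og_S6_dini _ _ _ h3 ?_
  have elin : fderiv ℝ F p (1, k) = -(fderiv ℝ F p (-1, 0)) + k * fderiv ℝ F p (0, 1) := by
    rw [← smul_eq_mul, ← map_smul, ← map_neg, ← map_add]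
    congr 1
    ext <;> simp
  rw [elin]
  have hp0 : ((p.1 + 0, p.2 + 0) : ℝ × ℝ) = p := by simp
  have b1 : fderiv ℝ F p (0, 1) ≤ B p := by
    refine og_S6_le _ _ _ h1 fun ε hε => ?_
    filter_upwards [hw hp ε hε] with h hh
    simp only [zero_mul, add_zero, mul_zero, one_mul]
    exact hh
  have b2 : -(fderiv ℝ F p (-1, 0)) ≤ -(A p) := by
    refine og_S6_le _ _ _ h2.neg fun ε hε => ?_
    filter_upwards [ht hp ε hε] with h hh
    simp only [Pi.neg_apply, zero_mul, add_zero, neg_mul, one_mul, neg_zero]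
    have : p.1 + -h = p.1 - h := by ring
    rw [this]
    have e0 : F (p.1, p.2) = F p := rfl
    rw [e0]
    nlinarith
  have := mul_le_mul_of_nonneg_left b1 hk
  linarith

end Claimed.Agent.R256
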