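import Claimed.Agent.R256.Og.Def

/-!
# Row 256, unit OG, file 5: a run of finite steps (abstract)      (architect helper277)

LEAF OG-B4.  `F` = `Eg g`, `R` = the reachable region, `b` = right end of the cell, `T` = final time, `c` = what is already lost beyond the cell.
Proof: induction on `n` with `b - v ≤ n h`.  If `T - t < h` use `nn`.  Otherwise one step to `v₁ = v + k h ≥ v + h`; if `b ≤ v₁` use `exit`, else the induction hypothesis;
`∫_{v-h}^{v} G + ∫_{v₁-h}^{b} G ≤ ∫_{v-h}^{b} G` because `v ≤ v₁ - h` and `G ≥ 0`.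
-/

set_option autoImplicit false

namespace Claimed.Agent.R256

open MeasureTheory Filter Topology

theorem og_cellZ (F : ℝ → ℝ → ℝ) (R : ℝ → ℝ → Prop) (G : ℝ → ℝ) (Γ h kmin T b c : ℝ)
    (hh : 0 < h) (hΓ : 0 ≤ Γ) (hk : 1 ≤ kmin) (hc : 0 ≤ c)
    (hG0 : ∀ y, 0 ≤ G y) (hGi : ∀ x y : ℝ, IntervalIntegrable G volume x y)
    (node : ∀ t v, R t v → v < b → t + h ≤ T → ∃ k, kmin ≤ k ∧ R (t + h) (v + k * h) ∧
      Γ * h - (∫ y in (v - h)..v, G y) ≤ F t v - F (t + h) (v + k * h))
    (exit : ∀ t v, R t v → b ≤ v → t ≤ T → Γ * (T - t) - c ≤ F t v)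
    (nn : ∀ t v, R t v → 0 ≤ F t v) :
    ∀ t v, R t v → t ≤ T → v < b → Γ * (T - t) - Γ * h - c - (∫ y in (v - h)..b, G y) ≤ F t v := by
  have hpos : ∀ x y : ℝ, x ≤ y → 0 ≤ ∫ z in x..y, G z := fun x y hxy =>
    intervalIntegral.integral_nonneg hxy fun z _ => hG0 z
  have hadd : ∀ x y z : ℝ, (∫ u in x..y, G u) + (∫ u in y..z, G u) = ∫ u in x..z, G u :=
    fun x y z => intervalIntegral.integral_add_adjacent_intervals (hGi x y) (hGi y z)
  have key : ∀ n : ℕ, ∀ t v, R t v → t ≤ T → v < b → b - v ≤ n * h →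
      Γ * (T - t) - Γ * h - c - (∫ y in (v - h)..b, G y) ≤ F t v := by
    intro n
    induction n with
    | zero =>
      intro t v _ _ hv hn
      simp at hn
      linarith
    | succ n ih =>
      intro t v hR ht hv hn
      push_cast at hn
      by_cases hT : t + h ≤ T
      · obtain ⟨k, hk1, hR1, hst⟩ := node t v hR hv hT
        have hkh : h ≤ k * h := by
          have : (1 : ℝ) ≤ k := hk.trans hk1
          nlinarith
        by_cases hb : b ≤ v + k * h
        · have h1 := exit (t + h) (v + k * h) hR1 hb hT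
          have h2 := hadd (v - h) v b
          have h3 := hpos v b hv.le
          have h4 : 0 ≤ Γ * h := by positivity
          nlinarith
        · have hb' : v + k * h < b := not_le.1 hb
          have h1 := ih (t + h) (v + k * h) hR1 hT hb' (by nlinarith)
          have h2 := hadd (v - h) v b
          have h3 := hadd v (v + k * h - h) b
          have h4 := hpos v (v + k * h - h) (by linarith)
          nlinarith
      · have h1 := nn t v hR
        have h2 := hpos (v - h) b (by linarith)
        have h3 : Γ * (T - t) ≤ Γ * h := mul_le_mul_of_nonneg_left (by linarith) hΓ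
        linarith
  intro t v hR ht hv
  refine key ⌈(b - v) / h⌉₊ t v hR ht hv ?_
  have := Nat.le_ceil ((b - v) / h)
  rwa [div_le_iff₀ hh] at this

end Claimed.Agent.R256
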