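import Claimed.Agent.R256.Og.Def

/-!
# Row 256, unit OG, file 4: density point, cells, pigeonhole, rational grid      (architect helper277)

* `og_density` LEAF OG-A4: one-sided density point.  Route: `Besicovitch.ae_tendsto_measure_inter_div_of_measurableSet`, `Real.volume_closedBall`,
  `Icc x (x+r) \ s ⊆ closedBall x r \ s`.
* `og_cells`   LEAF OG-A5: on a fine uniform partition of `[0,L]` a measurable set is almost a union of cells.
  Route: `min (|C ∩ P|) (|C \ P|) ≤ 2 ∫_C |1_P - κ|` for every constant `κ`;  `Integrable.exists_hasCompactSupport_integral_sub_le` gives a continuous `f` with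
  `∫ |1_{P ∩ [0,L]} - f| ≤ ε/4`;  `κ_C = f (left end)`, uniform continuity.
* `og_pigeon`  LEAF OG-A6.   * `og_grid` LEAF OG-A7.
-/

set_option autoImplicit false

namespace Claimed.Agent.R256

open MeasureTheory Filter Topology
open scoped BigOperators

theorem og_density (s : Set ℝ) (hs : MeasurableSet s) (hpos : 0 < volume s) (ε : ℝ) (hε : 0 < ε) :
    ∃ x ∈ s, ∃ r0 : ℝ, 0 < r0 ∧ ∀ r, 0 < r → r < r0 →
      (volume (Set.Icc x (x + r) \ s)).toReal ≤ ε * r := by
  have hae := Besicovitch.ae_tendsto_measure_inter_div_of_measurableSet (volume : Measure ℝ) hs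
  obtain ⟨x, hxs, hx⟩ := Measure.exists_mem_of_measure_ne_zero_of_ae hpos.ne' (ae_restrict_of_ae hae)
  refine ⟨x, hxs, ?_⟩
  rw [Set.indicator_of_mem hxs, Pi.one_apply] at hx
  have ha : ENNReal.ofReal (1 - ε / 2) < 1 := ENNReal.ofReal_lt_one.2 (by linarith)
  have hev := (tendsto_order.1 hx).1 _ ha
  obtain ⟨r0, hr0, hsub⟩ := mem_nhdsGT_iff_exists_Ioo_subset.1 hev
  refine ⟨r0, hr0, fun r hr hrr => ?_⟩
  have h1 : ENNReal.ofReal (1 - ε / 2) < volume (s ∩ Metric.closedBall x r) / volume (Metric.closedBall x r) :=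
    hsub ⟨hr, hrr⟩
  rw [Real.volume_closedBall] at h1
  have h2r : (0 : ℝ) < 2 * r := by linarith
  have h2 : ENNReal.ofReal ((1 - ε / 2) * (2 * r)) < volume (s ∩ Metric.closedBall x r) := by
    rw [ENNReal.ofReal_mul' h2r.le]
    exact (ENNReal.lt_div_iff_mul_lt (Or.inl (ENNReal.ofReal_pos.2 h2r).ne') (Or.inl ENNReal.ofReal_ne_top)).1 h1
  have hfin : volume (Metric.closedBall x r) ≠ ⊤ := by
    rw [Real.volume_closedBall]; exact ENNReal.ofReal_ne_top
  have hfin1 : volume (s ∩ Metric.closedBall x r) ≠ ⊤ :=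
    ne_top_of_le_ne_top hfin (measure_mono Set.inter_subset_right)
  have hfin2 : volume (Metric.closedBall x r \ s) ≠ ⊤ :=
    ne_top_of_le_ne_top hfin (measure_mono Set.sdiff_subset)
  have h3 : (1 - ε / 2) * (2 * r) ≤ (volume (s ∩ Metric.closedBall x r)).toReal :=
    (ENNReal.ofReal_le_iff_le_toReal hfin1).1 h2.le
  have h4 : volume (Metric.closedBall x r ∩ s) + volume (Metric.closedBall x r \ s) = volume (Metric.closedBall x r) :=
    measure_inter_add_sdiff _ hs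
  have h5 : (volume (s ∩ Metric.closedBall x r)).toReal + (volume (Metric.closedBall x r \ s)).toReal = 2 * r := by
    rw [Set.inter_comm, ← ENNReal.toReal_add (by rwa [Set.inter_comm]) hfin2, h4, Real.volume_closedBall,
      ENNReal.toReal_ofReal h2r.le]
  have h6 : (volume (Set.Icc x (x + r) \ s)).toReal ≤ (volume (Metric.closedBall x r \ s)).toReal := by
    refine ENNReal.toReal_mono hfin2 (measure_mono (Set.sdiff_subset_sdiff_left ?_))
    intro y hy
    rw [Metric.mem_closedBall, Real.dist_eq, abs_le]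
    constructor <;> linarith [hy.1, hy.2]
  nlinarith

/-- the cells of a monotone subdivision are almost disjoint -/
theorem og_cells_sum (a : ℕ → ℝ) (ha : Monotone a) (D : Set ℝ) (hD : MeasurableSet D) (N : ℕ) :
    ∑ j ∈ Finset.range N, volume (Set.Icc (a j) (a (j + 1)) ∩ D) ≤ volume D := by
  have h1 : ∀ j, volume (Set.Icc (a j) (a (j + 1)) ∩ D) ≤ volume (Set.Ioc (a j) (a (j + 1)) ∩ D) := by
    intro j
    have hsub : Set.Icc (a j) (a (j + 1)) ∩ D ⊆ {a j} ∪ Set.Ioc (a j) (a (j + 1)) ∩ D := by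
      rintro x ⟨⟨hx1, hx2⟩, hxD⟩
      rcases eq_or_lt_of_le hx1 with h | h
      · exact Or.inl h.symm
      · exact Or.inr ⟨⟨h, hx2⟩, hxD⟩
    calc volume (Set.Icc (a j) (a (j + 1)) ∩ D) ≤ volume ({a j} ∪ Set.Ioc (a j) (a (j + 1)) ∩ D) := measure_mono hsub
      _ ≤ volume {a j} + volume (Set.Ioc (a j) (a (j + 1)) ∩ D) := measure_union_le _ _
      _ = volume (Set.Ioc (a j) (a (j + 1)) ∩ D) := by rw [Real.volume_singleton, zero_add]
  have hdis : Set.PairwiseDisjoint (↑(Finset.range N)) fun j => Set.Ioc (a j) (a (j + 1)) ∩ D := by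
    intro i _ j _ hij
    have := ha.pairwise_disjoint_on_Ioc_succ hij
    exact this.mono Set.inter_subset_left Set.inter_subset_left
  calc ∑ j ∈ Finset.range N, volume (Set.Icc (a j) (a (j + 1)) ∩ D)
      ≤ ∑ j ∈ Finset.range N, volume (Set.Ioc (a j) (a (j + 1)) ∩ D) := Finset.sum_le_sum fun j _ => h1 j
    _ = volume (⋃ j ∈ Finset.range N, Set.Ioc (a j) (a (j + 1)) ∩ D) :=
        (measure_biUnion_finset hdis fun j _ => measurableSet_Ioc.inter hD).symm
    _ ≤ volume D := measure_mono (Set.iUnion₂_subset fun j _ => Set.inter_subset_right)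

theorem og_cells (P : Set ℝ) (hP : MeasurableSet P) (L ε : ℝ) (hL : 0 < L) (hε : 0 < ε) :
    ∃ N : ℕ, 0 < N ∧ ∑ j ∈ Finset.range N,
      min (volume (Set.Icc (j * (L / N)) ((j + 1 : ℕ) * (L / N)) ∩ P)).toReal
        (volume (Set.Icc (j * (L / N)) ((j + 1 : ℕ) * (L / N)) \ P)).toReal ≤ ε := by
  have hA : MeasurableSet (P ∩ Set.Icc 0 L) := hP.inter measurableSet_Icc
  have hAfin : volume (P ∩ Set.Icc 0 L) ≠ ⊤ :=
    ne_top_of_le_ne_top (by rw [Real.volume_Icc]; exact ENNReal.ofReal_ne_top) (measure_mono Set.inter_subset_right)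
  have hδ' : ENNReal.ofReal (ε / 2) ≠ 0 := (ENNReal.ofReal_pos.2 (by linarith)).ne'
  obtain ⟨K, hKA, hK, hKlt⟩ := hA.exists_isCompact_lt_add hAfin hδ'
  obtain ⟨U, hAU, hU, hUlt⟩ := (P ∩ Set.Icc 0 L).exists_isOpen_lt_add hAfin hδ'
  have hKfin : volume K ≠ ⊤ := hK.measure_lt_top.ne
  have hDm : MeasurableSet (U \ K) := hU.measurableSet.diff hK.measurableSet
  have hD : volume (U \ K) ≤ ENNReal.ofReal ε := by
    rw [measure_sdiff (hKA.trans hAU) hK.measurableSet.nullMeasurableSet hKfin, tsub_le_iff_left]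
    calc volume U ≤ volume (P ∩ Set.Icc 0 L) + ENNReal.ofReal (ε / 2) := hUlt.le
      _ ≤ volume K + ENNReal.ofReal (ε / 2) + ENNReal.ofReal (ε / 2) := by gcongr
      _ = volume K + ENNReal.ofReal ε := by
          rw [add_assoc, ← ENNReal.ofReal_add (by linarith) (by linarith), add_halves]
  obtain ⟨δ, hδ, hthick⟩ := hK.exists_thickening_subset_open hU (hKA.trans hAU)
  obtain ⟨N, hN⟩ := exists_nat_gt (L / δ)
  have hN0 : (0 : ℝ) < N := lt_trans (by positivity) hN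
  have hNpos : 0 < N := by exact_mod_cast hN0
  refine ⟨N, hNpos, ?_⟩
  have hℓ : 0 < L / N := by positivity
  have hℓδ : L / N < δ := by
    rw [div_lt_iff₀ hN0]
    rw [div_lt_iff₀ hδ] at hN
    linarith
  have hmono : Monotone fun j : ℕ => (j : ℝ) * (L / N) := by
    intro i j hij
    have : (i : ℝ) ≤ j := by exact_mod_cast hij
    exact mul_le_mul_of_nonneg_right this hℓ.le
  have hkey : ∀ j ∈ Finset.range N,
      min (volume (Set.Icc (j * (L / N)) ((j + 1 : ℕ) * (L / N)) ∩ P)).toReal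
        (volume (Set.Icc (j * (L / N)) ((j + 1 : ℕ) * (L / N)) \ P)).toReal
      ≤ (volume (Set.Icc (j * (L / N)) ((j + 1 : ℕ) * (L / N)) ∩ (U \ K))).toReal := by
    intro j hj
    have hjN : j + 1 ≤ N := Finset.mem_range.1 hj
    have hfin : volume (Set.Icc (j * (L / N)) ((j + 1 : ℕ) * (L / N)) ∩ (U \ K)) ≠ ⊤ :=
      ne_top_of_le_ne_top (by rw [Real.volume_Icc]; exact ENNReal.ofReal_ne_top) (measure_mono Set.inter_subset_left)
    have hC : Set.Icc ((j : ℝ) * (L / N)) ((j + 1 : ℕ) * (L / N)) ⊆ Set.Icc 0 L := by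
      intro x hx
      refine ⟨le_trans (by positivity) hx.1, hx.2.trans ?_⟩
      have h1 : ((j + 1 : ℕ) : ℝ) ≤ N := by exact_mod_cast hjN
      calc ((j + 1 : ℕ) : ℝ) * (L / N) ≤ N * (L / N) := mul_le_mul_of_nonneg_right h1 hℓ.le
        _ = L := by field_simp
    by_cases hne : (Set.Icc ((j : ℝ) * (L / N)) ((j + 1 : ℕ) * (L / N)) ∩ K).Nonempty
    · obtain ⟨k, hkC, hkK⟩ := hne
      refine (min_le_right _ _).trans (ENNReal.toReal_mono hfin (measure_mono ?_))
      rintro x ⟨hxC, hxP⟩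
      refine ⟨hxC, hthick ?_, fun hxK => hxP (hKA hxK).1⟩
      rw [Metric.mem_thickening_iff]
      refine ⟨k, hkK, lt_of_le_of_lt ?_ hℓδ⟩
      rw [Real.dist_eq, abs_le]
      have e : ((j + 1 : ℕ) : ℝ) * (L / N) = j * (L / N) + L / N := by push_cast; ring
      constructor <;> linarith [hxC.1, hxC.2, hkC.1, hkC.2]
    · refine (min_le_left _ _).trans (ENNReal.toReal_mono hfin (measure_mono ?_))
      rintro x ⟨hxC, hxP⟩
      exact ⟨hxC, hAU ⟨hxP, hC hxC⟩, fun hxK => hne ⟨x, hxC, hxK⟩⟩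
  refine (Finset.sum_le_sum hkey).trans ?_
  rw [← ENNReal.toReal_sum fun j _ =>
    ne_top_of_le_ne_top (by rw [Real.volume_Icc]; exact ENNReal.ofReal_ne_top) (measure_mono Set.inter_subset_left)]
  have hsum := og_cells_sum (fun j : ℕ => (j : ℝ) * (L / N)) hmono (U \ K) hDm N
  calc (∑ j ∈ Finset.range N, volume (Set.Icc (j * (L / N)) ((j + 1 : ℕ) * (L / N)) ∩ (U \ K))).toReal
      ≤ (ENNReal.ofReal ε).toReal := ENNReal.toReal_mono ENNReal.ofReal_ne_top (hsum.trans hD)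
    _ = ε := ENNReal.toReal_ofReal hε.le

theorem og_pigeon (x : ℕ → ℝ) (n : ℕ) (hn : 0 < n) (M : ℝ) (hM : x n - x 0 ≤ M) :
    ∃ i, i < n ∧ x (i + 1) - x i ≤ M / n := by
  by_contra hcon
  push Not at hcon
  have hn' : (0 : ℝ) < n := by exact_mod_cast hn
  have h1 : ∑ i ∈ Finset.range n, (M / n) < ∑ i ∈ Finset.range n, (x (i + 1) - x i) :=
    Finset.sum_lt_sum_of_nonempty (Finset.nonempty_range_iff.2 hn.ne')
      (fun i hi => hcon i (Finset.mem_range.1 hi))
  rw [Finset.sum_range_sub, Finset.sum_const, Finset.card_range, nsmul_eq_mul,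
    mul_div_cancel₀ _ hn'.ne'] at h1
  linarith

theorem og_grid (a b β : ℝ) (hβ : 0 < β) :
    ∃ S : Finset ℚ, (∀ t, a ≤ t → t ≤ b → ∃ q ∈ S, t + β / 4 < (q : ℝ) ∧ (q : ℝ) < t + β / 2) ∧
      ∀ q ∈ S, a + β / 4 < (q : ℝ) ∧ (q : ℝ) < b + β / 2 := by
  classical
  obtain ⟨δ, hδ0, hδ1⟩ := exists_rat_btwn (show (0 : ℝ) < β / 4 by positivity)
  have hδ0' : (0 : ℝ) < (δ : ℝ) := hδ0
  refine ⟨((Finset.Icc ⌊(a + β / 4) / (δ : ℝ)⌋ ⌈(b + β / 2) / (δ : ℝ)⌉).image
    (fun k : ℤ => (k : ℚ) * δ)).filter (fun q => a + β / 4 < (q : ℝ) ∧ (q : ℝ) < b + β / 2), ?_, ?_⟩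
  · intro t hat htb
    obtain ⟨k, hk⟩ : ∃ k : ℤ, k = ⌊(t + β / 4) / (δ : ℝ)⌋ + 1 := ⟨_, rfl⟩
    have h1 : (t + β / 4) / (δ : ℝ) < (k : ℝ) := by
      rw [hk]; push_cast; exact Int.lt_floor_add_one _
    have h2 : (k : ℝ) ≤ (t + β / 4) / (δ : ℝ) + 1 := by
      rw [hk]; push_cast
      have := Int.floor_le ((t + β / 4) / (δ : ℝ))
      linarith
    have h3 : t + β / 4 < (k : ℝ) * δ := (div_lt_iff₀ hδ0').1 h1
    have h4 : (k : ℝ) * δ ≤ t + β / 4 + δ := by
      have := mul_le_mul_of_nonneg_right h2 hδ0'.le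
      rw [add_mul, div_mul_cancel₀ _ hδ0'.ne', one_mul] at this
      exact this
    have hcast : (((k : ℚ) * δ : ℚ) : ℝ) = (k : ℝ) * δ := by push_cast; ring
    refine ⟨(k : ℚ) * δ, ?_, by rw [hcast]; exact h3, by rw [hcast]; linarith⟩
    rw [Finset.mem_filter, Finset.mem_image]
    refine ⟨⟨k, ?_, rfl⟩, by rw [hcast]; linarith, by rw [hcast]; linarith⟩
    rw [Finset.mem_Icc]
    constructor
    · have h5 : ⌊(a + β / 4) / (δ : ℝ)⌋ ≤ ⌊(t + β / 4) / (δ : ℝ)⌋ := by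
        apply Int.floor_le_floor
        exact div_le_div_of_nonneg_right (by linarith) hδ0'.le
      omega
    · have h6 : (k : ℝ) < (b + β / 2) / (δ : ℝ) := by
        rw [lt_div_iff₀ hδ0']; linarith
      have h7 : (k : ℝ) < (⌈(b + β / 2) / (δ : ℝ)⌉ : ℝ) := lt_of_lt_of_le h6 (Int.le_ceil _)
      have h8 : k < ⌈(b + β / 2) / (δ : ℝ)⌉ := by exact_mod_cast h7
      exact h8.le
  · intro q hq
    exact (Finset.mem_filter.1 hq).2

end Claimed.Agent.R256
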