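import Claimed.Agent.R256.Og.Ps
import Claimed.Agent.R256.Og.Meas
import Claimed.Agent.R256.Og.CellZ

/-!
# Row 256, unit OG, file 8: the two cases with `J > 0`      (architect helper277)

* LEAF OG-CP `og_caseP` (paper l.953-972).  `P = {v | DomS q v ∧ v < J t1 ∧ 0 < m q v}` (measurable: `Ok.m_meas`), `v* ∈ P` from `og_density` (accuracy `ε'`), `t* = v*/J ∈ (q, t1)`.
  For small `r`: `og_ps` with `s = q`, `t = t*`, `v = v* + ε r`, `ℓ = r`, `T = t* + r` gives `2Γ r - C0 ε' (1+kp) r ≤ E t* (v* + ε r) ≤ Lip ε r` (`Ok.seam`, `Ok.E_lip`, `Ok.E_nn`).  Choose `ε, ε'` small.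
* LEAF OG-CZ `og_caseZ` (paper l.974-1014).  `t* = (t0+t1)/2`, `v* = J t*`, `ε` with `Lip ε < Γ/4`, `r` small, `v₀ = v* + ε r`, `b₀ = ε r/(2J)`, `S` from `og_grid t* (t*+r) b₀`... (times `t+h`),
  `g` with `A0 g < b₀/4`, `Ce g < Γ r/8`, `g ≤ g0`; `ρ` from `Ok.step g (ε r)`.  `og_cellZ` with `F = Eg g`, `G = D.G S h`, `T = t*+r`, `c = 0`, `b = v₀ + kmax r + 1` (never reached),
  `R t v := t* ≤ t ∧ t ≤ T ∧ v₀ + kmin (t-t*) ≤ v ∧ v ≤ v₀ + kmax (t-t*)`; `og_MX_le` with `q ∈ S`, `(t+h) + b₀/4 < q < (t+h) + b₀/2`, needs `(1+J) h ≤ ε r/2`.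
  `og_G_lim` on `[v₀ - 1, b]`... restricted to widths `< J t1`: take `r` so small that `b`-part actually used is `[v₀-h, v₀+kmax r]`; simplest: apply `og_cellZ` with `b = v₀ + kmax r + h` and
  `og_G_lim` on `[v*, v* + (ε + kmax + 1) r]`, whose intersection with `Pos S` is null by `hnull`.  Result `Γ r - Γ h - o(1) ≤ Eg g t* v₀ ≤ Lip ε r + Ce g`.
-/

set_option autoImplicit false

namespace Claimed.Agent.R256

open MeasureTheory Filter Topology

/-- for small `r > 0`: `A r < B` -/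
theorem og_cj_small (A B : ℝ) (hB : 0 < B) : ∀ᶠ r in 𝓝[>] (0 : ℝ), A * r < B := by
  have h1 : Tendsto (fun r : ℝ => A * r) (𝓝 0) (𝓝 (A * 0)) := (continuous_const.mul continuous_id).tendsto 0
  rw [mul_zero] at h1
  exact nhdsWithin_le_nhds (h1.eventually (gt_mem_nhds hB))

theorem og_cj_P_meas (D : OgData) (hD : D.Ok) (q : ℝ) :
    MeasurableSet {v : ℝ | D.DomS q v ∧ v < D.J * D.t1 ∧ 0 < D.m q v} := by
  have e : {v : ℝ | D.DomS q v ∧ v < D.J * D.t1 ∧ 0 < D.m q v}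
      = {v : ℝ | D.t0 < q ∧ q < D.t1} ∩ Set.Icc (D.J * q) (D.J * q + D.wd) ∩ Set.Ioi (D.J * q) ∩ Set.Iio (D.J * D.t1)
        ∩ (D.m q) ⁻¹' Set.Ioi 0 := by
    ext v
    simp only [OgData.DomS, OgData.DomR, Set.mem_ofPred_eq, Set.mem_inter_iff, Set.mem_Icc, Set.mem_Ioi, Set.mem_Iio,
      Set.mem_preimage]
    tauto
  rw [e]
  exact ((((MeasurableSet.const _).inter measurableSet_Icc).inter measurableSet_Ioi).inter measurableSet_Iio).inter
    (hD.m_meas q measurableSet_Ioi)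

theorem og_caseP (D : OgData) (hD : D.Ok) (hJ : 0 < D.J) (q : ℚ) (hq0 : D.t0 < (q : ℝ))
    (hq1 : (q : ℝ) < D.t1)
    (hpos : 0 < volume {v : ℝ | D.DomS (q : ℝ) v ∧ v < D.J * D.t1 ∧ 0 < D.m (q : ℝ) v}) : False := by
  have hΓ := hD.Γ_pos
  have hLip := hD.Lip_nn
  have hkp : 1 ≤ D.kp := hD.kp_one
  have hC0 : 0 < D.C0 := by
    unfold OgData.C0
    have : 0 ≤ D.Lip * (1 + D.kp) := mul_nonneg hLip (by linarith)
    linarith
  obtain ⟨P, hPdef⟩ : ∃ P : Set ℝ, P = {v : ℝ | D.DomS (q : ℝ) v ∧ v < D.J * D.t1 ∧ 0 < D.m (q : ℝ) v} := ⟨_, rfl⟩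
  have hPm : MeasurableSet P := by rw [hPdef]; exact og_cj_P_meas D hD q
  rw [← hPdef] at hpos
  -- the two small parameters
  obtain ⟨ε, hεdef⟩ : ∃ ε : ℝ, ε = D.Γ / (2 * (D.Lip + 1)) := ⟨_, rfl⟩
  have hε : 0 < ε := by rw [hεdef]; positivity
  have hLε : D.Lip * ε ≤ D.Γ / 2 := by
    rw [hεdef]
    have h1 : D.Lip * (D.Γ / (2 * (D.Lip + 1))) = D.Γ / 2 * (D.Lip / (D.Lip + 1)) := by field_simp
    rw [h1]
    have h2 : D.Lip / (D.Lip + 1) ≤ 1 := (div_le_one (by linarith)).2 (by linarith)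
    calc D.Γ / 2 * (D.Lip / (D.Lip + 1)) ≤ D.Γ / 2 * 1 := mul_le_mul_of_nonneg_left h2 (by linarith)
      _ = D.Γ / 2 := mul_one _
  obtain ⟨ε', hε'def⟩ : ∃ ε' : ℝ, ε' = D.Γ / (2 * D.C0 * (ε + D.kp)) := ⟨_, rfl⟩
  have hεk : 0 < ε + D.kp := by linarith
  have hε' : 0 < ε' := by rw [hε'def]; positivity
  have hCε : D.C0 * (ε' * (ε + D.kp)) = D.Γ / 2 := by
    rw [hε'def]; field_simp
  obtain ⟨vs, hvsP, r0, hr0, hdens⟩ := og_density P hPm hpos ε' hε'
  have hvs : D.DomS (q : ℝ) vs ∧ vs < D.J * D.t1 ∧ 0 < D.m (q : ℝ) vs := by rw [hPdef] at hvsP; exact hvsP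
  obtain ⟨⟨⟨-, -, -, hvs2⟩, hvs3⟩, hvs4, -⟩ := hvs
  obtain ⟨ts, htsdef⟩ : ∃ ts : ℝ, ts = vs / D.J := ⟨_, rfl⟩
  have hJts : D.J * ts = vs := by rw [htsdef]; field_simp
  have hqts : (q : ℝ) < ts := by
    rw [htsdef, lt_div_iff₀ hJ]; linarith
  have htst1 : ts < D.t1 := by
    rw [htsdef, div_lt_iff₀ hJ]; linarith
  have ht0ts : D.t0 < ts := hq0.trans hqts
  have hvs0 : 0 ≤ vs := by
    have : 0 ≤ D.J * (q : ℝ) := mul_nonneg hJ.le (hD.t0_nn.trans hq0.le)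
    linarith
  -- a small radius
  obtain ⟨r, ⟨hr1, hr2, hr3⟩, hr⟩ := (((og_cj_small 1 (D.t1 - ts) (by linarith)).and
    ((og_cj_small (ε + D.kp) D.wd hD.wd_pos).and (og_cj_small (ε + D.kp) r0 hr0))).and self_mem_nhdsWithin).exists
  have hr : 0 < r := hr
  rw [one_mul] at hr1
  have hεr : 0 < ε * r := mul_pos hε hr
  have hkr : 0 < D.kp * r := mul_pos (by linarith) hr
  have hJr : 0 ≤ D.J * r := mul_nonneg hJ.le hr.le
  have key := og_ps D hD P hPm (q : ℝ) (ts + r) ts (vs + ε * r) r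
    (by
      intro x hx
      rw [hPdef] at hx
      obtain ⟨⟨⟨a1, a2, a3, a4⟩, a5⟩, -, a6⟩ := hx
      have : 0 ≤ D.J * (q : ℝ) := mul_nonneg hJ.le (hD.t0_nn.trans hq0.le)
      exact ⟨⟨a1, a2, by linarith, a4⟩, a6⟩)
    hqts.le hr.le le_rfl (by linarith) ht0ts (by rw [hJts]; linarith) (by rw [hJts]; nlinarith)
  -- the left-hand side
  have hE1 : 0 ≤ D.E (ts + r) (vs + ε * r + D.kp * r) :=
    hD.E_nn _ _ ⟨by linarith, by linarith, by linarith, by
      have : D.J * (ts + r) = vs + D.J * r := by rw [mul_add, hJts]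
      rw [this]; nlinarith⟩
  have hmin : min (2 * D.Γ * r + D.E (ts + r) (vs + ε * r + D.kp * r)) (2 * D.Γ * (ts + r - ts)) = 2 * D.Γ * r := by
    rw [add_sub_cancel_left]
    exact min_eq_right (by linarith)
  rw [hmin] at key
  have hvol : (volume (Set.Icc (vs + ε * r) (vs + ε * r + D.kp * r) \ P)).toReal ≤ ε' * ((ε + D.kp) * r) := by
    refine le_trans ?_ (hdens ((ε + D.kp) * r) (mul_pos hεk hr) hr3)
    refine ENNReal.toReal_mono ?_ (measure_mono (Set.sdiff_subset_sdiff_left ?_))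
    · exact ne_top_of_le_ne_top (by rw [Real.volume_Icc]; exact ENNReal.ofReal_ne_top) (measure_mono Set.sdiff_subset)
    · intro y hy
      exact ⟨by linarith [hy.1], by nlinarith [hy.2]⟩
  -- the right-hand side
  have hE2 : D.E ts (vs + ε * r) ≤ D.Lip * (ε * r) := by
    have h1 := hD.E_lip ts (vs + ε * r) ts vs ⟨ht0ts, htst1, by linarith, by rw [hJts]; nlinarith⟩
      ⟨ht0ts, htst1, hvs0, by rw [hJts]; linarith [hD.wd_pos]⟩
    have h2 : D.E ts vs = 0 := by rw [← hJts]; exact hD.seam ts ht0ts htst1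
    rw [h2, sub_zero, sub_self, abs_zero, zero_add, add_sub_cancel_left, abs_of_pos hεr] at h1
    exact (le_abs_self _).trans h1
  have h3 : D.C0 * (volume (Set.Icc (vs + ε * r) (vs + ε * r + D.kp * r) \ P)).toReal ≤ D.Γ / 2 * r := by
    calc D.C0 * (volume (Set.Icc (vs + ε * r) (vs + ε * r + D.kp * r) \ P)).toReal
        ≤ D.C0 * (ε' * ((ε + D.kp) * r)) := mul_le_mul_of_nonneg_left hvol hC0.le
      _ = D.C0 * (ε' * (ε + D.kp)) * r := by ring
      _ = D.Γ / 2 * r := by rw [hCε]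
  have h4 : D.Lip * (ε * r) ≤ D.Γ / 2 * r := by
    calc D.Lip * (ε * r) = D.Lip * ε * r := by ring
      _ ≤ D.Γ / 2 * r := mul_le_mul_of_nonneg_right hLε hr.le
  have h5 : 0 < D.Γ * r := mul_pos hΓ hr
  nlinarith

/-- the widths below `J t1` which are charged at a time of `S` form a null set -/
theorem og_cj_Pos_null (D : OgData)
    (hnull : ∀ q : ℚ, D.t0 < (q : ℝ) → (q : ℝ) < D.t1 →
      volume {v : ℝ | D.DomS (q : ℝ) v ∧ v < D.J * D.t1 ∧ 0 < D.m (q : ℝ) v} = 0)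
    (S : Finset ℚ) (hS : ∀ q ∈ S, D.t0 < (q : ℝ) ∧ (q : ℝ) < D.t1) (a b : ℝ) (hb : b < D.J * D.t1) :
    volume (Set.Icc a b ∩ D.Pos S) = 0 := by
  have hsub : Set.Icc a b ∩ D.Pos S ⊆ ⋃ q ∈ S, {v : ℝ | D.DomS (q : ℝ) v ∧ v < D.J * D.t1 ∧ 0 < D.m (q : ℝ) v} := by
    rintro y ⟨hy, q, hq, h1, h2⟩
    exact Set.mem_biUnion hq ⟨h1, lt_of_le_of_lt hy.2 hb, h2⟩
  refine measure_mono_null hsub ?_
  exact (measure_biUnion_null_iff S.countable_toSet).2 fun q hq => hnull q (hS q hq).1 (hS q hq).2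

theorem og_caseZ (D : OgData) (hD : D.Ok) (hJ : 0 < D.J)
    (hnull : ∀ q : ℚ, D.t0 < (q : ℝ) → (q : ℝ) < D.t1 →
      volume {v : ℝ | D.DomS (q : ℝ) v ∧ v < D.J * D.t1 ∧ 0 < D.m (q : ℝ) v} = 0) : False := by
  have hΓ := hD.Γ_pos
  have hLip := hD.Lip_nn
  have hkmin : 1 ≤ D.kmin := hD.kmin_one
  have hkmax : 1 ≤ D.kmax := hkmin.trans hD.kmin_le
  have hJk : D.J < D.kmin := hD.J_lt_kmin
  obtain ⟨ts, htsdef⟩ : ∃ ts : ℝ, ts = (D.t0 + D.t1) / 2 := ⟨_, rfl⟩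
  have ht0ts : D.t0 < ts := by rw [htsdef]; linarith [hD.t_lt]
  have htst1 : ts < D.t1 := by rw [htsdef]; linarith [hD.t_lt]
  have hts0 : 0 < ts := lt_of_le_of_lt hD.t0_nn ht0ts
  obtain ⟨ε, hεdef⟩ : ∃ ε : ℝ, ε = D.Γ / (4 * (D.Lip + 1)) := ⟨_, rfl⟩
  have hε : 0 < ε := by rw [hεdef]; positivity
  have hLε : D.Lip * ε ≤ D.Γ / 4 := by
    rw [hεdef]
    have h1 : D.Lip * (D.Γ / (4 * (D.Lip + 1))) = D.Γ / 4 * (D.Lip / (D.Lip + 1)) := by field_simp
    rw [h1]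
    have h2 : D.Lip / (D.Lip + 1) ≤ 1 := (div_le_one (by linarith)).2 (by linarith)
    calc D.Γ / 4 * (D.Lip / (D.Lip + 1)) ≤ D.Γ / 4 * 1 := mul_le_mul_of_nonneg_left h2 (by linarith)
      _ = D.Γ / 4 := mul_one _
  -- the length `r` of the run
  obtain ⟨r, ⟨hr1, hr2, hr3⟩, hr⟩ := (((og_cj_small (1 + ε / (4 * D.J)) (D.t1 - ts) (by linarith)).and
    ((og_cj_small (ε + D.kmax) D.wd hD.wd_pos).and
      (og_cj_small (ε + D.kmax + 1) (D.J * (D.t1 - ts)) (mul_pos hJ (by linarith))))).and self_mem_nhdsWithin).exists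
  have hr : 0 < r := hr
  have hεr : 0 < ε * r := mul_pos hε hr
  obtain ⟨b0, hb0def⟩ : ∃ b0 : ℝ, b0 = ε * r / (2 * D.J) := ⟨_, rfl⟩
  have hb0 : 0 < b0 := by rw [hb0def]; positivity
  have hJb0 : D.J * b0 = ε * r / 2 := by rw [hb0def]; field_simp
  have hT1 : ts + r + b0 / 2 < D.t1 := by
    have e : (1 + ε / (4 * D.J)) * r = r + b0 / 2 := by rw [hb0def]; field_simp; ring
    rw [e] at hr1
    linarith
  obtain ⟨v0, hv0def⟩ : ∃ v0 : ℝ, v0 = D.J * ts + ε * r := ⟨_, rfl⟩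
  obtain ⟨S, hS1, hS2⟩ := og_grid ts (ts + r) b0 hb0
  have hS : ∀ q ∈ S, D.t0 < (q : ℝ) ∧ (q : ℝ) < D.t1 := fun q hq =>
    ⟨by linarith [(hS2 q hq).1], by linarith [(hS2 q hq).2]⟩
  -- the enlargement `g`
  obtain ⟨g, ⟨hg1, hg2, hg3⟩, hg⟩ := (((og_cj_small D.A0 (b0 / 4) (by linarith)).and
    ((og_cj_small D.Ce (D.Γ * r / 8) (by positivity)).and (og_cj_small 1 D.g0 hD.g0_pos))).and self_mem_nhdsWithin).exists
  have hg : 0 < g := hg
  have hg0 : g ≤ D.g0 := by rw [one_mul] at hg3; exact hg3.le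
  obtain ⟨ρ, hρ, hstep⟩ := hD.step g hg hg0 (ε * r) hεr
  -- the gap `h`
  have hlim := og_G_lim D hD S hS (D.J * ts) (D.J * ts + (ε + D.kmax + 1) * r)
    (by have : 0 < (ε + D.kmax + 1) * r := mul_pos (by linarith) hr
        linarith) (D.Γ * r / 8) (by positivity)
  rw [og_cj_Pos_null D hnull S hS _ _ (by linarith)] at hlim
  obtain ⟨h, ⟨hh1, hh2, hh3, hh4, hh5⟩, hh⟩ := ((hlim.and ((og_cj_small 1 ρ hρ).and ((og_cj_small (1 + D.J) (ε * r / 2) (by linarith)).and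
    ((og_cj_small 1 r hr).and (og_cj_small D.Γ (D.Γ * r / 8) (by positivity)))))).and self_mem_nhdsWithin).exists
  have hh : 0 < h := hh
  rw [one_mul] at hh2 hh4
  simp only [ENNReal.toReal_zero, mul_zero, zero_add] at hh1
  have hJh : 0 ≤ D.J * h := mul_nonneg hJ.le hh.le
  have hhε : h < ε * r / 2 := by linarith
  -- facts on the reachable region
  obtain ⟨R, hRdef⟩ : ∃ R : ℝ → ℝ → Prop, R = fun t v =>
      ts ≤ t ∧ t ≤ ts + r ∧ v0 + D.kmin * (t - ts) ≤ v ∧ v ≤ v0 + D.kmax * (t - ts) := ⟨_, rfl⟩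
  have hRlow : ∀ t v, R t v → D.J * t + ε * r ≤ v := by
    intro t v hR
    rw [hRdef] at hR
    obtain ⟨a1, a2, a3, a4⟩ := hR
    have : D.J * (t - ts) ≤ D.kmin * (t - ts) := mul_le_mul_of_nonneg_right hJk.le (by linarith)
    rw [hv0def] at a3
    linarith
  have hRup : ∀ t v, R t v → v ≤ v0 + D.kmax * r := by
    intro t v hR
    rw [hRdef] at hR
    obtain ⟨a1, a2, a3, a4⟩ := hR
    have : D.kmax * (t - ts) ≤ D.kmax * r := mul_le_mul_of_nonneg_left (by linarith) (by linarith)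
    linarith
  have hv0up : v0 + D.kmax * r < D.J * ts + D.wd := by rw [hv0def]; linarith
  have hRdom : ∀ t v, R t v → D.DomR t v := by
    intro t v hR
    have h1 := hRlow t v hR
    have h2 := hRup t v hR
    rw [hRdef] at hR
    obtain ⟨a1, a2, a3, a4⟩ := hR
    have h3 : D.J * ts ≤ D.J * t := mul_le_mul_of_nonneg_left a1 hJ.le
    exact ⟨by linarith, by linarith, by linarith, by linarith⟩
  have key := og_cellZ (D.Eg g) R (D.G S h) D.Γ h D.kmin (ts + r) (v0 + D.kmax * r + h) 0 hh hΓ.le hkmin le_rfl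
    (fun y => og_G_nn D hD S h y hh) (fun x y => og_G_int D hD S h hh x y)
    (by
      intro t v hR _ htT
      have hlow := hRlow t v hR
      have hup := hRup t v hR
      have hdom := hRdom t v hR
      have hR' := hR
      rw [hRdef] at hR'
      obtain ⟨a1, a2, a3, a4⟩ := hR'
      have hJt : D.J * ts ≤ D.J * t := mul_le_mul_of_nonneg_left a1 hJ.le
      obtain ⟨k, hk1, hk2, hk3⟩ := hstep h t v hh hh2.le (by linarith) (by linarith) hlow (by
        have e1 : D.kmax * (t - ts) + D.kmax * h ≤ D.kmax * r := by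
          have : D.kmax * (t + h - ts) ≤ D.kmax * r := mul_le_mul_of_nonneg_left (by linarith) (by linarith)
          linarith
        have e2 : D.J * (t + h) = D.J * t + D.J * h := by ring
        rw [e2]
        linarith)
      refine ⟨k, hk1, ?_, ?_⟩
      · rw [hRdef]
        refine ⟨by linarith, htT, ?_, ?_⟩
        · have : D.kmin * h ≤ k * h := mul_le_mul_of_nonneg_right hk1 hh.le
          linarith
        · have : k * h ≤ D.kmax * h := mul_le_mul_of_nonneg_right hk2 hh.le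
          linarith
      · obtain ⟨q, hqS, hq1, hq2⟩ := hS1 (t + h) (by linarith) htT
        have hMX := og_MX_le D hD S g h t v q hqS hg hg0 hh hdom (by linarith) (by
          intro y hy1 hy2
          have hJq1 : D.J * (q : ℝ) < D.J * (t + h + b0 / 2) := mul_lt_mul_of_pos_left hq2 hJ
          have hJq2 : D.J * ts ≤ D.J * (q : ℝ) := mul_le_mul_of_nonneg_left (by linarith) hJ.le
          have e : D.J * (t + h + b0 / 2) = D.J * t + D.J * h + ε * r / 4 := by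
            have : D.J * (t + h + b0 / 2) = D.J * t + D.J * h + D.J * b0 / 2 := by ring
            rw [this, hJb0]; ring
          rw [e] at hJq1
          have hlt : D.J * (q : ℝ) < y := by linarith
          exact ⟨⟨(hS q hqS).1, (hS q hqS).2, hlt.le, by linarith⟩, hlt⟩)
        linarith)
    (by
      intro t v hR hb _
      have := hRup t v hR
      linarith)
    (fun t v hR => hD.Eg_nn g t v hg hg0 (hRdom t v hR))
    ts v0 (by rw [hRdef]; exact ⟨le_rfl, by linarith, by simp, by simp⟩) (by linarith)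
    (by have : 0 < D.kmax * r := mul_pos (by linarith) hr
        linarith)
  -- the integral of `G`
  have hint : ∫ y in (v0 - h)..(v0 + D.kmax * r + h), D.G S h y ≤ D.Γ * r / 8 := by
    refine le_trans ?_ hh1
    refine intervalIntegral.integral_mono_interval (by rw [hv0def]; linarith) ?_ (by rw [hv0def]; linarith)
      (Filter.Eventually.of_forall fun y => og_G_nn D hD S h y hh) (og_G_int D hD S h hh _ _)
    have : 0 < D.kmax * r := mul_pos (by linarith) hr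
    linarith
  -- the upper bound at the start
  have hdom0 : D.DomR ts v0 := ⟨ht0ts, htst1, by rw [hv0def]; linarith, by
    have : 0 < D.kmax * r := mul_pos (by linarith) hr
    linarith⟩
  have hE1 : D.Eg g ts v0 ≤ D.E ts v0 + D.Ce * g := by
    have := hD.enl g ts v0 hg hg0 hdom0
    linarith [(abs_le.1 this).2]
  have hE2 : D.E ts v0 ≤ D.Lip * (ε * r) := by
    have hJts0 : 0 ≤ D.J * ts := mul_nonneg hJ.le hts0.le
    have h1 := hD.E_lip ts v0 ts (D.J * ts) ⟨ht0ts, htst1, by rw [hv0def]; linarith, hdom0.2.2.2⟩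
      ⟨ht0ts, htst1, hJts0, by linarith [hD.wd_pos]⟩
    rw [hD.seam ts ht0ts htst1, sub_zero, sub_self, abs_zero, zero_add, hv0def, add_sub_cancel_left, abs_of_pos hεr] at h1
    rw [hv0def]
    exact (le_abs_self _).trans h1
  have h4 : D.Lip * (ε * r) ≤ D.Γ / 4 * r := by
    calc D.Lip * (ε * r) = D.Lip * ε * r := by ring
      _ ≤ D.Γ / 4 * r := mul_le_mul_of_nonneg_right hLε hr.le
  have h5 : 0 < D.Γ * r := mul_pos hΓ hr
  rw [add_sub_cancel_left] at key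
  linarith

end Claimed.Agent.R256
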