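import Claimed.Agent.R256.Og.Def

/-!
# Row 256, unit OG, file 6: the density `G` that dominates the losses `MX`      (architect helper277)

* LEAF OG-G1: `og_DomR_Dom`, `og_Pos_meas`, `og_G_nn`, `og_G_le`, `og_G_meas`, `og_G_int`, `og_MX_le`.
  `og_MX_le`: by (shift) `MX ≤ U (y + (Ks+1) h) q y ≤ h * G S h y` for every `y ∈ [v-h, v]`; integrate over this interval of length `h`.
* LEAF OG-G2: `og_G_lim`: off `Pos S` every term of `G S h y` tends to `0` for a.e. `y` (`Ok.ang`, `m q y = 0`); bounded convergence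
  (`tendsto_integral_filter_of_dominated_convergence`, the filter `𝓝[>] 0` is countably generated); on `Pos S` use `og_G_le`.
-/

set_option autoImplicit false

namespace Claimed.Agent.R256

open MeasureTheory Filter Topology

theorem og_DomR_Dom (D : OgData) (hD : D.Ok) (t v : ℝ) (h : D.DomR t v) : D.Dom t v := by
  obtain ⟨h1, h2, h3, h4⟩ := h
  refine ⟨h1, h2, le_trans ?_ h3, h4⟩
  exact mul_nonneg hD.J_nn (hD.t0_nn.trans h1.le)

theorem og_DomS_meas (D : OgData) (t : ℝ) : MeasurableSet {y | D.DomS t y} := by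
  by_cases h : D.t0 < t ∧ t < D.t1
  · have e : {y | D.DomS t y} = Set.Ioc (D.J * t) (D.J * t + D.wd) := by
      ext y
      simp only [OgData.DomS, OgData.DomR, Set.mem_ofPred_eq, Set.mem_Ioc]
      constructor
      · rintro ⟨⟨_, _, _, h4⟩, h5⟩
        exact ⟨h5, h4⟩
      · rintro ⟨h5, h4⟩
        exact ⟨⟨h.1, h.2, h5.le, h4⟩, h5⟩
    rw [e]
    exact measurableSet_Ioc
  · have e : {y | D.DomS t y} = ∅ := by
      ext y
      simp only [OgData.DomS, OgData.DomR, Set.mem_ofPred_eq, Set.mem_empty_iff_false, iff_false]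
      rintro ⟨⟨h1, h2, _, _⟩, _⟩
      exact h ⟨h1, h2⟩
    rw [e]
    exact MeasurableSet.empty

theorem og_Pos_meas (D : OgData) (hD : D.Ok) (S : Finset ℚ) : MeasurableSet (D.Pos S) := by
  have e : D.Pos S = ⋃ q ∈ S, ({y | D.DomS (q : ℝ) y} ∩ {y | 0 < D.m (q : ℝ) y}) := by
    ext y
    simp only [OgData.Pos, Set.mem_ofPred_eq, Set.mem_iUnion, Set.mem_inter_iff, exists_prop]
  rw [e]
  exact Finset.measurableSet_biUnion S fun q _ =>
    (og_DomS_meas D q).inter (measurableSet_lt measurable_const (hD.m_meas q))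

open Classical in
theorem og_G_term_nn (D : OgData) (hD : D.Ok) (q : ℚ) (h y : ℝ) (hh : 0 < h) :
    0 ≤ (if D.DomS (q : ℝ) y then D.U (y + (D.Ks + 1) * h) (q : ℝ) y / h else 0) := by
  split_ifs with hq
  · exact div_nonneg (hD.U_nn h q y hh hq.1) hh.le
  · exact le_rfl

open Classical in
theorem og_G_term_le (D : OgData) (hD : D.Ok) (q : ℚ) (h y : ℝ) (hh : 0 < h) :
    (if D.DomS (q : ℝ) y then D.U (y + (D.Ks + 1) * h) (q : ℝ) y / h else 0) ≤ D.Ks + 1 := by
  split_ifs with hq
  · rw [div_le_iff₀ hh]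
    exact hD.U_le h q y hh hq.1
  · have := hD.Ks_nn
    linarith

theorem og_G_nn (D : OgData) (hD : D.Ok) (S : Finset ℚ) (h y : ℝ) (hh : 0 < h) : 0 ≤ D.G S h y :=
  Finset.sum_nonneg fun q _ => og_G_term_nn D hD q h y hh

theorem og_G_le (D : OgData) (hD : D.Ok) (S : Finset ℚ) (h y : ℝ) (hh : 0 < h) :
    D.G S h y ≤ S.card * (D.Ks + 1) := by
  have := Finset.sum_le_card_nsmul S _ (D.Ks + 1) fun q _ => og_G_term_le D hD q h y hh
  rw [nsmul_eq_mul] at this
  exact this

theorem og_G_meas (D : OgData) (hD : D.Ok) (S : Finset ℚ) (h : ℝ) : Measurable (D.G S h) := by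
  unfold OgData.G
  refine Finset.measurable_fun_sum S fun q _ => ?_
  exact Measurable.ite (og_DomS_meas D q) ((hD.U_meas h q).div_const h) measurable_const

theorem og_G_int (D : OgData) (hD : D.Ok) (S : Finset ℚ) (h : ℝ) (hh : 0 < h) (a b : ℝ) :
    IntervalIntegrable (D.G S h) volume a b := by
  rw [intervalIntegrable_iff]
  refine Measure.integrableOn_of_bounded (M := S.card * (D.Ks + 1)) (by simp)
    (og_G_meas D hD S h).aestronglyMeasurable (Eventually.of_forall fun y => ?_)
  rw [Real.norm_eq_abs, abs_of_nonneg (og_G_nn D hD S h y hh)]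
  exact og_G_le D hD S h y hh

theorem og_MX_le (D : OgData) (hD : D.Ok) (S : Finset ℚ) (g h t v : ℝ) (q : ℚ) (hq : q ∈ S)
    (hg : 0 < g) (hg0 : g ≤ D.g0) (hh : 0 < h) (hn : D.DomR t v) (hq1 : t + h + D.A0 * g < (q : ℝ))
    (hq2 : ∀ y, v - h ≤ y → y ≤ v → D.DomS (q : ℝ) y) :
    D.MX t v h g ≤ ∫ y in (v - h)..v, D.G S h y := by
  have h1 : ∀ y ∈ Set.Icc (v - h) v, D.MX t v h g / h ≤ D.G S h y := by
    intro y hy
    have hS := hq2 y hy.1 hy.2
    have h2 : D.MX t v h g ≤ D.U (y + (D.Ks + 1) * h) (q : ℝ) y :=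
      hD.shift g h t v q y hg hg0 hh hn hq1 hS.1 hy.1 hy.2
    have h3 : D.U (y + (D.Ks + 1) * h) (q : ℝ) y / h ≤ D.G S h y := by
      classical
      have := Finset.single_le_sum (f := fun q : ℚ =>
        if D.DomS (q : ℝ) y then D.U (y + (D.Ks + 1) * h) (q : ℝ) y / h else 0)
        (fun q _ => og_G_term_nn D hD q h y hh) hq
      simp only [if_pos hS] at this
      unfold OgData.G
      convert this
    exact (div_le_div_of_nonneg_right h2 hh.le).trans h3
  have h4 : ∫ _y in (v - h)..v, D.MX t v h g / h ≤ ∫ y in (v - h)..v, D.G S h y :=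
    intervalIntegral.integral_mono_on (by linarith) intervalIntegrable_const
      (og_G_int D hD S h hh _ _) h1
  rw [intervalIntegral.integral_const] at h4
  have h5 : (v - (v - h)) • (D.MX t v h g / h) = D.MX t v h g := by
    rw [smul_eq_mul]
    field_simp
    ring
  rwa [h5] at h4

theorem og_G_lim (D : OgData) (hD : D.Ok) (S : Finset ℚ)
    (hS : ∀ q ∈ S, D.t0 < (q : ℝ) ∧ (q : ℝ) < D.t1) (a b : ℝ) (hab : a ≤ b) (ε : ℝ) (hε : 0 < ε) :
    ∀ᶠ h in 𝓝[>] (0 : ℝ), ∫ y in a..b, D.G S h y ≤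
      S.card * (D.Ks + 1) * (volume (Set.Icc a b ∩ D.Pos S)).toReal + ε := by
  classical
  have hPm := og_Pos_meas D hD S
  have hCb0 : (0 : ℝ) ≤ S.card * (D.Ks + 1) := by
    have := hD.Ks_nn
    positivity
  -- the pointwise limit
  have hang : ∀ᵐ y : ℝ, ∀ q ∈ S, D.DomR (q : ℝ) y →
      Tendsto (fun h : ℝ => D.U (y + (D.Ks + 1) * h) (q : ℝ) y / h) (𝓝[>] 0)
        (𝓝 ((D.Ks + 1) * D.m (q : ℝ) y)) :=
    (Finset.eventually_all S).2 fun q hq => hD.ang q (hS q hq).1 (hS q hq).2
  have hae : ∀ᵐ y : ℝ,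
      Tendsto (fun h => (D.Pos S)ᶜ.indicator (D.G S h) y) (𝓝[>] 0) (𝓝 0) := by
    filter_upwards [hang] with y hy
    by_cases hyP : y ∈ D.Pos S
    · have : (fun h => (D.Pos S)ᶜ.indicator (D.G S h) y) = fun _ => 0 := by
        funext h
        exact Set.indicator_of_notMem (show y ∉ (D.Pos S)ᶜ from fun hc => hc hyP) _
      rw [this]
      exact tendsto_const_nhds
    · have : (fun h => (D.Pos S)ᶜ.indicator (D.G S h) y) = fun h => D.G S h y := by
        funext h
        exact Set.indicator_of_mem (show y ∈ (D.Pos S)ᶜ from hyP) _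
      rw [this]
      have h0 : (∑ _q ∈ S, (0 : ℝ)) = 0 := by simp
      suffices hs : Tendsto (fun h => D.G S h y) (𝓝[>] 0) (𝓝 (∑ _q ∈ S, (0 : ℝ))) by
        rwa [h0] at hs
      unfold OgData.G
      refine tendsto_finsetSum S fun q hq => ?_
      by_cases hqy : D.DomS (q : ℝ) y
      · simp only [if_pos hqy]
        have hm : D.m (q : ℝ) y = 0 := by
          refine le_antisymm (not_lt.1 fun hpos => hyP ⟨q, hq, hqy, hpos⟩) (hD.m_nn _ _)
        have := hy q hq hqy.1
        rwa [hm, mul_zero] at this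
      · simp only [if_neg hqy]
        exact tendsto_const_nhds
  have hlim : Tendsto
      (fun h => ∫ y in Set.Ioc a b, (D.Pos S)ᶜ.indicator (D.G S h) y) (𝓝[>] 0)
      (𝓝 (∫ _y in Set.Ioc a b, (0 : ℝ))) := by
    refine tendsto_integral_filter_of_dominated_convergence
      (fun _ => (S.card * (D.Ks + 1) : ℝ)) ?_ ?_ ?_ ?_
    · exact Eventually.of_forall fun h =>
        ((og_G_meas D hD S h).indicator hPm.compl).aestronglyMeasurable
    · filter_upwards [self_mem_nhdsWithin] with h hh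
      refine Eventually.of_forall fun y => ?_
      have hh' : (0 : ℝ) < h := hh
      rw [Real.norm_eq_abs]
      by_cases hy : y ∈ (D.Pos S)ᶜ
      · rw [Set.indicator_of_mem hy, abs_of_nonneg (og_G_nn D hD S h y hh')]
        exact og_G_le D hD S h y hh'
      · rw [Set.indicator_of_notMem hy, abs_zero]
        exact hCb0
    · exact integrable_const _
    · exact ae_restrict_of_ae hae
  rw [integral_zero] at hlim
  have hev := (tendsto_order.1 hlim).2 ε hε
  filter_upwards [hev, self_mem_nhdsWithin] with h h1 hh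
  have hh' : (0 : ℝ) < h := hh
  have hGi : IntegrableOn (D.G S h) (Set.Ioc a b) := by
    have := og_G_int D hD S h hh' a b
    rwa [intervalIntegrable_iff, Set.uIoc_of_le hab] at this
  rw [intervalIntegral.integral_of_le hab]
  have hsplit : ∫ y in Set.Ioc a b, D.G S h y
      = (∫ y in Set.Ioc a b, (D.Pos S).indicator (D.G S h) y)
        + ∫ y in Set.Ioc a b, (D.Pos S)ᶜ.indicator (D.G S h) y := by
    rw [← integral_add (Integrable.indicator hGi hPm) (Integrable.indicator hGi hPm.compl)]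
    refine integral_congr_ae (Eventually.of_forall fun y => ?_)
    exact (congrFun (Set.indicator_self_add_compl (D.Pos S) (D.G S h)) y).symm
  have hfirst : ∫ y in Set.Ioc a b, (D.Pos S).indicator (D.G S h) y
      ≤ S.card * (D.Ks + 1) * (volume (Set.Icc a b ∩ D.Pos S)).toReal := by
    rw [integral_indicator hPm, Measure.restrict_restrict hPm]
    have hfin : volume (D.Pos S ∩ Set.Ioc a b) < ⊤ :=
      lt_of_le_of_lt (measure_mono Set.inter_subset_right) (by simp)
    have h2 := norm_setIntegral_le_of_norm_le_const (μ := volume) (s := D.Pos S ∩ Set.Ioc a b)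
      (f := D.G S h) (C := S.card * (D.Ks + 1)) hfin (fun y _ => by
        rw [Real.norm_eq_abs, abs_of_nonneg (og_G_nn D hD S h y hh')]
        exact og_G_le D hD S h y hh')
    refine (le_abs_self _).trans (h2.trans ?_)
    refine mul_le_mul_of_nonneg_left ?_ hCb0
    refine ENNReal.toReal_mono ?_ (measure_mono ?_)
    · exact ne_top_of_le_ne_top (by simp) (measure_mono Set.inter_subset_left)
    · rintro y ⟨hy1, hy2⟩
      exact ⟨Set.Ioc_subset_Icc_self hy2, hy1⟩
  rw [hsplit]
  linarith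

end Claimed.Agent.R256
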