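import Claimed.Agent.R256.Og.Ps
import Claimed.Agent.R256.Og.Meas
import Claimed.Agent.R256.Og.CellZ

/-!
# Row 256, unit OG, file 9: the case `J = 0`      (architect helper277)

Paper l.1016-1079, reorganised.  Seam `v = 0`.  Slab `[ts, T]`, `T = ts + r`; start `(ts, ε r)`; window of widths `(0, len]`, `len = (Kx+1) r`, cut into `N` equal cells;
`q` = one rational time in `(ts + 5r/4, ts + 7r/4)`;  `P` = widths with positive trace at `ts` (hence on the whole slab).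
`Low j R` : every reachable `(t,v)` with `v ≥ cell j` has `E t v ≥ Γ (T - t) - R`.   Downward induction on `j` (`og_J0_chain`), each cell costs the better of
* `og_J0_cellP` : `C0 |C_j \ P|`   (`og_ps` with `s = ts`, `ℓ = min ((cell (j+1) - v)/kp) (T - t)`);
* `og_J0_cellZ` : `2 Ce g + Γ h + ∫_{cell j - h}^{cell (j+1)} G {q} h`   (`og_cellZ` with `F = Eg g`, `R = Reach`, `b = cell (j+1)`, `c = R + Ce g`; `og_MX_le`).
LEAVES: OG-J1 `og_sum_cells`, `og_J0_setup` (pigeonhole `og_pigeon` for `x i = |{0 < v ≤ len, m (τ0 + 2 r i) v > 0}|`, monotone by `Ok.m_mono`, `≤ len`; choose `n ≥ (Kx+1)/ε` first, then `r ≤ (τ1-τ0)/(2n)`);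
OG-J2 `og_J0_cellP`;  OG-J3 `og_J0_cellZ`;  OG-J4 `og_J0_chain`;  OG-J5 `og_J0_param` (order: `r, ts` (setup), `q`, `N` (`og_cells`), `g`, `ρ` (`Ok.step g (ε r)`), `h` (finitely many eventualities in `𝓝[>] 0`, `og_G_lim`));
OG-J6 `og_J0` (`ε = Γ / (2 (Lip + C0 + 2 Ks + 8))`, `lam j = min (cost P) (cost Z)`, `C_j ∩ Pos {q} ⊆ (C_j ∩ P) ∪ (C_j ∩ Tr)`,
`min (C0 x) (a + (Ks+1) (y+z)) ≤ (C0 + Ks + 1) min y x + a + (Ks+1) z`, `E ts (ε r) ≤ Lip ε r`).
-/

set_option autoImplicit false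

namespace Claimed.Agent.R256

open MeasureTheory Filter Topology
open scoped BigOperators

/-- local parameters of the case `J = 0` -/
structure OgLoc where
  ts : ℝ
  r : ℝ
  ε : ℝ
  q : ℚ
  N : ℕ
  g : ℝ
  h : ℝ

namespace OgLoc

variable (L : OgLoc) (D : OgData)

/-- final time of the slab -/
def T : ℝ := L.ts + L.r

/-- length of the window of widths -/
noncomputable def len : ℝ := (D.Kx + 1) * L.r

/-- left end of the `j`-th cell -/
noncomputable def cell (j : ℕ) : ℝ := (j : ℝ) * (L.len D / L.N)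

/-- the points that a path started at `(ts, ε r)` can reach -/
def Reach (t v : ℝ) : Prop :=
  L.ts ≤ t ∧ t ≤ L.T ∧ L.ε * L.r ≤ v ∧ v ≤ L.ε * L.r + D.Kx * (t - L.ts)

/-- widths with positive trace on the whole slab -/
def P : Set ℝ := {v | 0 < v ∧ v ≤ L.len D ∧ 0 < D.m L.ts v}

/-- transition widths -/
def Tr : Set ℝ := {v | 0 < v ∧ v ≤ L.len D ∧ 0 < D.m (L.ts + 2 * L.r) v ∧ ¬ 0 < D.m L.ts v}

/-- the statement carried by the downward induction over the cells -/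
def Low (j : ℕ) (R : ℝ) : Prop :=
  ∀ t v, L.Reach D t v → L.cell D j ≤ v → D.Γ * (L.T - t) - R ≤ D.E t v

structure Ok : Prop where
  J0 : D.J = 0
  r_pos : 0 < L.r
  ε_pos : 0 < L.ε
  ε_lt : L.ε < 1
  ts0 : D.t0 < L.ts
  ts1 : L.ts + 2 * L.r < D.t1
  len_lt : L.len D < D.wd
  q0 : L.ts + 5 / 4 * L.r < (L.q : ℝ)
  q1 : (L.q : ℝ) < L.ts + 7 / 4 * L.r
  N_pos : 0 < L.N
  g_pos : 0 < L.g
  g_le : L.g ≤ D.g0
  A0g : D.A0 * L.g < L.r / 8
  h_pos : 0 < L.h
  h_lt : L.h < L.ε * L.r / 2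
  step : ∀ t v, D.t0 < t → t + L.h < D.t1 → L.ε * L.r ≤ v → v + D.kmax * L.h ≤ D.wd →
    ∃ k, D.kmin ≤ k ∧ k ≤ D.kmax ∧
      D.Γ * L.h - D.MX t v L.h L.g ≤ D.Eg L.g t v - D.Eg L.g (t + L.h) (v + k * L.h)

end OgLoc

theorem og_loc_eqns_cite : True := by
  have := @OgLoc.T.eq_1
  have := @OgLoc.len.eq_1
  have := @OgLoc.cell.eq_1
  have := @OgLoc.Reach.eq_1
  have := @OgLoc.P.eq_1
  have := @OgLoc.Tr.eq_1
  have := @OgLoc.Low.eq_1
  trivial

theorem og_sum_cells (A : Set ℝ) (hA : MeasurableSet A) (L : ℝ) (hL : 0 < L) (N : ℕ) (hN : 0 < N) :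
    ∑ j ∈ Finset.range N, (volume (Set.Icc (j * (L / N)) ((j + 1 : ℕ) * (L / N)) ∩ A)).toReal
      ≤ (volume (Set.Icc 0 L ∩ A)).toReal := by
  have hN0 : (0 : ℝ) < N := by exact_mod_cast hN
  have hℓ : 0 < L / N := by positivity
  have hmono : Monotone fun j : ℕ => (j : ℝ) * (L / N) := by
    intro i j hij
    have : (i : ℝ) ≤ j := by exact_mod_cast hij
    exact mul_le_mul_of_nonneg_right this hℓ.le
  have hfinD : volume (Set.Icc 0 L ∩ A) ≠ ⊤ :=
    ne_top_of_le_ne_top (by rw [Real.volume_Icc]; exact ENNReal.ofReal_ne_top) (measure_mono Set.inter_subset_left)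
  have hsum := og_cells_sum (fun j : ℕ => (j : ℝ) * (L / N)) hmono (Set.Icc 0 L ∩ A) (measurableSet_Icc.inter hA) N
  have hfin : ∀ j ∈ Finset.range N, volume (Set.Icc ((j : ℝ) * (L / N)) ((j + 1 : ℕ) * (L / N)) ∩ (Set.Icc 0 L ∩ A)) ≠ ⊤ := fun j _ =>
    ne_top_of_le_ne_top (by rw [Real.volume_Icc]; exact ENNReal.ofReal_ne_top) (measure_mono Set.inter_subset_left)
  have hkey : ∀ j ∈ Finset.range N, (volume (Set.Icc ((j : ℝ) * (L / N)) ((j + 1 : ℕ) * (L / N)) ∩ A)).toReal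
      ≤ (volume (Set.Icc ((j : ℝ) * (L / N)) ((j + 1 : ℕ) * (L / N)) ∩ (Set.Icc 0 L ∩ A))).toReal := by
    intro j hj
    have hjN : j + 1 ≤ N := Finset.mem_range.1 hj
    refine ENNReal.toReal_mono (hfin j hj) (measure_mono ?_)
    rintro x ⟨hx, hxA⟩
    refine ⟨hx, ⟨le_trans (by positivity) hx.1, hx.2.trans ?_⟩, hxA⟩
    have h1 : ((j + 1 : ℕ) : ℝ) ≤ N := by exact_mod_cast hjN
    calc ((j + 1 : ℕ) : ℝ) * (L / N) ≤ N * (L / N) := mul_le_mul_of_nonneg_right h1 hℓ.le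
      _ = L := by field_simp
  refine (Finset.sum_le_sum hkey).trans ?_
  rw [← ENNReal.toReal_sum hfin]
  exact ENNReal.toReal_mono hfinD hsum

theorem og_J0_setup (D : OgData) (hD : D.Ok) (hJ : D.J = 0) (ε : ℝ) (hε : 0 < ε) :
    ∃ r ts : ℝ, 0 < r ∧ D.t0 < ts ∧ ts + 2 * r < D.t1 ∧ (D.Kx + 1) * r < D.wd ∧
      (volume {v : ℝ | 0 < v ∧ v ≤ (D.Kx + 1) * r ∧ 0 < D.m (ts + 2 * r) v ∧ ¬ 0 < D.m ts v}).toReal
        ≤ ε * r := by
  have hK : 0 < D.Kx + 1 := by
    have : D.kp ≤ D.Kx := le_max_left _ _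
    linarith [hD.kp_one]
  have hd : 0 < D.t1 - D.t0 := sub_pos.2 hD.t_lt
  obtain ⟨τ0, hτ0⟩ : ∃ τ0 : ℝ, τ0 = D.t0 + (D.t1 - D.t0) / 3 := ⟨_, rfl⟩
  obtain ⟨n, hn⟩ := exists_nat_gt ((D.Kx + 1) / ε)
  have hn0 : (0 : ℝ) < n := lt_trans (by positivity) hn
  have hnpos : 0 < n := by exact_mod_cast hn0
  obtain ⟨r, hr⟩ : ∃ r : ℝ, r = min ((D.t1 - D.t0) / 3 / (2 * n)) (D.wd / (2 * (D.Kx + 1))) := ⟨_, rfl⟩
  have hr0 : 0 < r := by
    rw [hr]
    exact lt_min (by positivity) (div_pos hD.wd_pos (by positivity))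
  have hr1 : 2 * r * n ≤ (D.t1 - D.t0) / 3 := by
    have : r ≤ (D.t1 - D.t0) / 3 / (2 * n) := by rw [hr]; exact min_le_left _ _
    rw [le_div_iff₀ (by positivity)] at this
    linarith
  have hlen : (D.Kx + 1) * r < D.wd := by
    have : r ≤ D.wd / (2 * (D.Kx + 1)) := by rw [hr]; exact min_le_right _ _
    rw [le_div_iff₀ (by positivity)] at this
    linarith [hD.wd_pos]
  obtain ⟨S, hS⟩ : ∃ S : ℝ → Set ℝ, S = fun t => {v : ℝ | 0 < v ∧ v ≤ (D.Kx + 1) * r ∧ 0 < D.m t v} := ⟨_, rfl⟩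
  have hSm : ∀ t, MeasurableSet (S t) := by
    intro t
    have e : S t = Set.Ioc 0 ((D.Kx + 1) * r) ∩ D.m t ⁻¹' Set.Ioi 0 := by
      rw [hS]; ext v
      simp only [Set.mem_ofPred_eq, Set.mem_inter_iff, Set.mem_Ioc, Set.mem_preimage, Set.mem_Ioi, and_assoc]
    rw [e]
    exact measurableSet_Ioc.inter (hD.m_meas t measurableSet_Ioi)
  have hSle : ∀ t, volume (S t) ≤ ENNReal.ofReal ((D.Kx + 1) * r) := by
    intro t
    have : S t ⊆ Set.Ioc 0 ((D.Kx + 1) * r) := by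
      rw [hS]; intro v hv; exact ⟨hv.1, hv.2.1⟩
    refine (measure_mono this).trans ?_
    rw [Real.volume_Ioc, sub_zero]
  have hSfin : ∀ t, volume (S t) ≠ ⊤ := fun t => ne_top_of_le_ne_top ENNReal.ofReal_ne_top (hSle t)
  obtain ⟨i, hi, hx⟩ := og_pigeon (fun i : ℕ => (volume (S (τ0 + 2 * r * i))).toReal) n hnpos ((D.Kx + 1) * r) (by
    have h1 : (volume (S (τ0 + 2 * r * n))).toReal ≤ (D.Kx + 1) * r := by
      have := ENNReal.toReal_mono ENNReal.ofReal_ne_top (hSle (τ0 + 2 * r * n))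
      rwa [ENNReal.toReal_ofReal (by positivity)] at this
    have h2 : 0 ≤ (volume (S (τ0 + 2 * r * (0 : ℕ)))).toReal := ENNReal.toReal_nonneg
    linarith)
  have hi' : ((i : ℝ) + 1) ≤ n := by exact_mod_cast hi
  have hi0 : (0 : ℝ) ≤ i := Nat.cast_nonneg i
  have e1 : τ0 + 2 * r * ((i + 1 : ℕ) : ℝ) = τ0 + 2 * r * i + 2 * r := by push_cast; ring
  have ht0 : D.t0 < τ0 + 2 * r * i := by
    have : 0 ≤ 2 * r * i := by positivity
    rw [hτ0]; linarith
  have ht1 : τ0 + 2 * r * i + 2 * r < D.t1 := by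
    have : 2 * r * ((i : ℝ) + 1) ≤ 2 * r * n := mul_le_mul_of_nonneg_left hi' (by positivity)
    rw [hτ0]; linarith
  refine ⟨r, τ0 + 2 * r * i, hr0, ht0, ht1, hlen, ?_⟩
  have hsub : S (τ0 + 2 * r * i) ⊆ S (τ0 + 2 * r * i + 2 * r) := by
    rw [hS]
    intro v hv
    refine ⟨hv.1, hv.2.1, lt_of_lt_of_le hv.2.2 (hD.m_mono v _ _ ⟨ht0, by linarith, hv.1.le, ?_⟩ (by linarith) ht1)⟩
    rw [hJ, zero_mul, zero_add]
    exact (hv.2.1.trans hlen.le)
  have eset : {v : ℝ | 0 < v ∧ v ≤ (D.Kx + 1) * r ∧ 0 < D.m (τ0 + 2 * r * i + 2 * r) v ∧ ¬ 0 < D.m (τ0 + 2 * r * i) v}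
      = S (τ0 + 2 * r * i + 2 * r) \ S (τ0 + 2 * r * i) := by
    rw [hS]; ext v
    simp only [Set.mem_ofPred_eq, Set.mem_sdiff]
    constructor
    · rintro ⟨a1, a2, a3, a4⟩
      exact ⟨⟨a1, a2, a3⟩, fun h => a4 h.2.2⟩
    · rintro ⟨⟨a1, a2, a3⟩, a4⟩
      exact ⟨a1, a2, a3, fun h => a4 ⟨a1, a2, h⟩⟩
  rw [eset, measure_sdiff hsub (hSm _).nullMeasurableSet (hSfin _), ENNReal.toReal_sub_of_le (measure_mono hsub) (hSfin _)]
  simp only [e1] at hx
  refine hx.trans ?_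
  rw [div_le_iff₀ hn0]
  rw [div_lt_iff₀ hε] at hn
  nlinarith

theorem og_J0_Kx (D : OgData) (hD : D.Ok) : 1 ≤ D.Kx ∧ D.kp ≤ D.Kx ∧ D.kmax ≤ D.Kx :=
  ⟨hD.kp_one.trans (le_max_left _ _), le_max_left _ _, le_max_right _ _⟩

theorem og_J0_len_pos (D : OgData) (hD : D.Ok) (L : OgLoc) (hL : L.Ok D) : 0 < L.len D := by
  have := (og_J0_Kx D hD).1
  exact mul_pos (by linarith) hL.r_pos

theorem og_J0_cell_succ (D : OgData) (L : OgLoc) (j : ℕ) : L.cell D (j + 1) = L.cell D j + L.len D / L.N := by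
  unfold OgLoc.cell
  push_cast
  ring

theorem og_J0_cell_le_succ (D : OgData) (hD : D.Ok) (L : OgLoc) (hL : L.Ok D) (j : ℕ) : L.cell D j ≤ L.cell D (j + 1) := by
  rw [og_J0_cell_succ]
  have : 0 ≤ L.len D / L.N := div_nonneg (og_J0_len_pos D hD L hL).le (Nat.cast_nonneg _)
  linarith

theorem og_J0_cell_N (D : OgData) (L : OgLoc) (hL : L.Ok D) : L.cell D L.N = L.len D := by
  have hN : (L.N : ℝ) ≠ 0 := by exact_mod_cast hL.N_pos.ne'
  unfold OgLoc.cell
  field_simp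

theorem og_J0_cell_le (D : OgData) (hD : D.Ok) (L : OgLoc) (hL : L.Ok D) {j : ℕ} (hj : j ≤ L.N) : L.cell D j ≤ L.len D := by
  rw [← og_J0_cell_N D L hL]
  unfold OgLoc.cell
  exact mul_le_mul_of_nonneg_right (by exact_mod_cast hj) (div_nonneg (og_J0_len_pos D hD L hL).le (Nat.cast_nonneg _))

theorem og_J0_reach_lt (D : OgData) (hD : D.Ok) (L : OgLoc) (hL : L.Ok D) {t v : ℝ} (h : L.Reach D t v) : v < L.len D := by
  obtain ⟨-, h2, -, h4⟩ := h
  have hK := (og_J0_Kx D hD).1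
  have hT : t - L.ts ≤ L.r := by
    unfold OgLoc.T at h2
    linarith
  have a1 : D.Kx * (t - L.ts) ≤ D.Kx * L.r := mul_le_mul_of_nonneg_left hT (by linarith)
  have a2 : L.ε * L.r < 1 * L.r := mul_lt_mul_of_pos_right hL.ε_lt hL.r_pos
  have a3 : L.len D = D.Kx * L.r + L.r := by
    unfold OgLoc.len
    ring
  linarith

theorem og_J0_reach_pos (D : OgData) (L : OgLoc) (hL : L.Ok D) {t v : ℝ} (h : L.Reach D t v) : 0 < v :=
  lt_of_lt_of_le (mul_pos hL.ε_pos hL.r_pos) h.2.2.1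

theorem og_J0_T_lt (D : OgData) (L : OgLoc) (hL : L.Ok D) : L.T < D.t1 := by
  have := hL.ts1
  have := hL.r_pos
  unfold OgLoc.T
  linarith

theorem og_J0_reach_DomR (D : OgData) (hD : D.Ok) (L : OgLoc) (hL : L.Ok D) {t v : ℝ} (h : L.Reach D t v) : D.DomR t v := by
  have h1 := og_J0_reach_lt D hD L hL h
  have h2 := og_J0_reach_pos D L hL h
  have h3 := og_J0_T_lt D L hL
  refine ⟨lt_of_lt_of_le hL.ts0 h.1, lt_of_le_of_lt h.2.1 h3, ?_, ?_⟩
  · rw [hL.J0, zero_mul]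
    exact h2.le
  · rw [hL.J0, zero_mul, zero_add]
    exact (h1.trans hL.len_lt).le

theorem og_J0_P_meas (D : OgData) (hD : D.Ok) (L : OgLoc) : MeasurableSet (L.P D) := by
  have e : L.P D = Set.Ioc 0 (L.len D) ∩ (D.m L.ts) ⁻¹' Set.Ioi 0 := by
    ext v
    simp [OgLoc.P, and_assoc]
  rw [e]
  exact measurableSet_Ioc.inter (hD.m_meas _ measurableSet_Ioi)

theorem og_J0_cellP (D : OgData) (hD : D.Ok) (L : OgLoc) (hL : L.Ok D) (j : ℕ) (hj : j < L.N)
    (R : ℝ) (hR : 0 ≤ R) (hnext : L.Low D (j + 1) R) :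
    L.Low D j (R + D.C0 * (volume (Set.Icc (L.cell D j) (L.cell D (j + 1)) \ L.P D)).toReal) := by
  intro t v hre hv
  have hΓ := hD.Γ_pos
  have hkp0 : 0 < D.kp := lt_of_lt_of_le one_pos hD.kp_one
  have hC0 : 0 ≤ D.C0 := by
    unfold OgData.C0
    have := hD.Lip_nn
    positivity
  have hμ0 : 0 ≤ D.C0 * (volume (Set.Icc (L.cell D j) (L.cell D (j + 1)) \ L.P D)).toReal := mul_nonneg hC0 ENNReal.toReal_nonneg
  rcases le_or_gt (L.cell D (j + 1)) v with hb | hb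
  · have := hnext t v hre hb
    linarith
  obtain ⟨r1, r2, r3, r4⟩ := hre
  have hre : L.Reach D t v := ⟨r1, r2, r3, r4⟩
  have hv0 := og_J0_reach_pos D L hL hre
  have hTt : 0 ≤ L.T - t := by linarith
  have hblen : L.cell D (j + 1) ≤ L.len D := og_J0_cell_le D hD L hL hj
  obtain ⟨ℓ, hℓd⟩ : ∃ ℓ : ℝ, ℓ = min ((L.cell D (j + 1) - v) / D.kp) (L.T - t) := ⟨_, rfl⟩
  have ha0 : 0 ≤ (L.cell D (j + 1) - v) / D.kp := div_nonneg (by linarith) hkp0.le
  have hℓ0 : 0 ≤ ℓ := by rw [hℓd]; exact le_min ha0 hTt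
  have hℓT : ℓ ≤ L.T - t := by rw [hℓd]; exact min_le_right _ _
  have hℓa : D.kp * ℓ ≤ L.cell D (j + 1) - v := by
    have : ℓ ≤ (L.cell D (j + 1) - v) / D.kp := by rw [hℓd]; exact min_le_left _ _
    rw [le_div_iff₀ hkp0] at this
    linarith
  have hTl := og_J0_T_lt D L hL
  have key := og_ps D hD (L.P D) (og_J0_P_meas D hD L) L.ts L.T t v ℓ
    (by
      rintro x ⟨x0, x1, x2⟩
      refine ⟨⟨hL.ts0, ?_, x0.le, ?_⟩, x2⟩
      · have := hL.ts1
        have := hL.r_pos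
        linarith
      · rw [hL.J0, zero_mul, zero_add]
        exact (lt_of_le_of_lt x1 hL.len_lt).le)
    r1 hℓ0 (by linarith) hTl (lt_of_lt_of_le hL.ts0 r1)
    (by rw [hL.J0, zero_mul]; exact hv0)
    (by
      rw [hL.J0, zero_mul, zero_add]
      have := hL.len_lt
      linarith)
  have hmeas : (volume (Set.Icc v (v + D.kp * ℓ) \ L.P D)).toReal
      ≤ (volume (Set.Icc (L.cell D j) (L.cell D (j + 1)) \ L.P D)).toReal := by
    refine ENNReal.toReal_mono ?_ (measure_mono (Set.sdiff_subset_sdiff_left (Set.Icc_subset_Icc hv (by linarith))))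
    exact ((measure_mono Set.sdiff_subset).trans_lt (by rw [Real.volume_Icc]; exact ENNReal.ofReal_lt_top)).ne
  have hmeas' := mul_le_mul_of_nonneg_left hmeas hC0
  have hmin : D.Γ * (L.T - t) - R ≤ min (2 * D.Γ * ℓ + D.E (t + ℓ) (v + D.kp * ℓ)) (2 * D.Γ * (L.T - t)) := by
    refine le_min ?_ ?_
    · rcases le_total ((L.cell D (j + 1) - v) / D.kp) (L.T - t) with hc | hc
      · have e1 : ℓ = (L.cell D (j + 1) - v) / D.kp := by rw [hℓd, min_eq_left hc]
        have e2 : v + D.kp * ℓ = L.cell D (j + 1) := by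
          rw [e1, mul_div_cancel₀ _ hkp0.ne']
          ring
        have hre' : L.Reach D (t + ℓ) (L.cell D (j + 1)) := by
          refine ⟨by linarith, by linarith, by linarith, ?_⟩
          have b1 : D.kp * ℓ ≤ D.Kx * ℓ := mul_le_mul_of_nonneg_right (og_J0_Kx D hD).2.1 hℓ0
          have b2 : D.Kx * (t + ℓ - L.ts) = D.Kx * (t - L.ts) + D.Kx * ℓ := by ring
          rw [← e2, b2]
          linarith
        have h1 := hnext (t + ℓ) (L.cell D (j + 1)) hre' le_rfl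
        rw [e2]
        have b3 : D.Γ * (L.T - (t + ℓ)) = D.Γ * (L.T - t) - D.Γ * ℓ := by ring
        have b4 : 0 ≤ D.Γ * ℓ := mul_nonneg hΓ.le hℓ0
        rw [b3] at h1
        linarith
      · have e1 : ℓ = L.T - t := by rw [hℓd, min_eq_right hc]
        have hdom : D.Dom (t + ℓ) (v + D.kp * ℓ) := by
          refine ⟨?_, ?_, ?_, ?_⟩
          · have := hL.ts0
            linarith
          · rw [e1]
            have : t + (L.T - t) = L.T := by ring
            rw [this]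
            exact hTl
          · have : 0 ≤ D.kp * ℓ := mul_nonneg hkp0.le hℓ0
            linarith
          · rw [hL.J0, zero_mul, zero_add]
            have := hL.len_lt
            linarith
        have h1 := hD.E_nn _ _ hdom
        have b4 : 0 ≤ D.Γ * (L.T - t) := mul_nonneg hΓ.le hTt
        have b5 : 2 * D.Γ * ℓ = 2 * (D.Γ * (L.T - t)) := by rw [e1]; ring
        linarith
    · have b4 : 0 ≤ D.Γ * (L.T - t) := mul_nonneg hΓ.le hTt
      have b5 : 2 * D.Γ * (L.T - t) = 2 * (D.Γ * (L.T - t)) := by ring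
      linarith
  linarith

theorem og_J0_cellZ (D : OgData) (hD : D.Ok) (L : OgLoc) (hL : L.Ok D) (j : ℕ) (hj : j < L.N)
    (R : ℝ) (hR : 0 ≤ R) (hnext : L.Low D (j + 1) R) :
    L.Low D j (R + (2 * D.Ce * L.g + D.Γ * L.h
      + ∫ y in (L.cell D j - L.h)..(L.cell D (j + 1)), D.G {L.q} L.h y)) := by
  intro t v hre hv
  have hΓ := hD.Γ_pos
  have hh := hL.h_pos
  have hg := hL.g_pos
  have hCe := hD.Ce_nn
  have hCg : 0 ≤ D.Ce * L.g := mul_nonneg hCe hg.le
  have hΓh : 0 ≤ D.Γ * L.h := mul_nonneg hΓ.le hh.le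
  have hG0 : ∀ y, 0 ≤ D.G {L.q} L.h y := fun y => og_G_nn D hD _ _ y hh
  have hGi : ∀ x y : ℝ, IntervalIntegrable (D.G {L.q} L.h) volume x y := fun x y => og_G_int D hD _ _ hh x y
  have hcc := og_J0_cell_le_succ D hD L hL j
  have hint0 : 0 ≤ ∫ y in (L.cell D j - L.h)..(L.cell D (j + 1)), D.G {L.q} L.h y :=
    intervalIntegral.integral_nonneg (by linarith) fun y _ => hG0 y
  rcases le_or_gt (L.cell D (j + 1)) v with hb | hb
  · have := hnext t v hre hb
    linarith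
  have hTl := og_J0_T_lt D L hL
  have hKx := og_J0_Kx D hD
  have hεr : 0 < L.ε * L.r := mul_pos hL.ε_pos hL.r_pos
  have key := og_cellZ (D.Eg L.g) (L.Reach D) (D.G {L.q} L.h) D.Γ L.h D.kmin L.T (L.cell D (j + 1)) (R + D.Ce * L.g)
    hh hΓ.le hD.kmin_one (by linarith) hG0 hGi
    (by
      intro t v hre _ hT
      obtain ⟨r1, r2, r3, r4⟩ := hre
      have hre : L.Reach D t v := ⟨r1, r2, r3, r4⟩
      have c1 : D.Kx * (t + L.h - L.ts) = D.Kx * (t - L.ts) + D.Kx * L.h := by ring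
      have c2 : D.kmax * L.h ≤ D.Kx * L.h := mul_le_mul_of_nonneg_right hKx.2.2 hh.le
      have hre2 : L.Reach D (t + L.h) (v + D.kmax * L.h) := by
        refine ⟨by linarith, hT, ?_, by rw [c1]; linarith⟩
        have : 0 ≤ D.kmax * L.h := mul_nonneg (by linarith [hD.kmin_one, hD.kmin_le]) hh.le
        linarith
      obtain ⟨k, k1, k2, hk⟩ := hL.step t v (lt_of_lt_of_le hL.ts0 r1) (lt_of_le_of_lt hT hTl) r3
        ((og_J0_reach_lt D hD L hL hre2).trans hL.len_lt).le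
      refine ⟨k, k1, ⟨by linarith, hT, ?_, ?_⟩, ?_⟩
      · have : 0 ≤ k * L.h := mul_nonneg (by linarith [hD.kmin_one]) hh.le
        linarith
      · have : k * L.h ≤ D.kmax * L.h := mul_le_mul_of_nonneg_right k2 hh.le
        rw [c1]
        linarith
      · have hMX := og_MX_le D hD {L.q} L.g L.h t v L.q (Finset.mem_singleton_self _) hg hL.g_le hh
          (og_J0_reach_DomR D hD L hL hre)
          (by
            have := hL.A0g
            have := hL.q0
            have := hL.r_pos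
            unfold OgLoc.T at hT
            linarith)
          (by
            intro y y1 y2
            have := hL.h_lt
            have hy0 : 0 < y := by linarith
            have hq0 := hL.q0
            have hq1 := hL.q1
            have hr := hL.r_pos
            refine ⟨⟨?_, ?_, ?_, ?_⟩, ?_⟩
            · have := hL.ts0
              linarith
            · have := hL.ts1
              linarith
            · rw [hL.J0, zero_mul]
              exact hy0.le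
            · rw [hL.J0, zero_mul, zero_add]
              have := og_J0_reach_lt D hD L hL hre
              have := hL.len_lt
              linarith
            · rw [hL.J0, zero_mul]
              exact hy0)
        linarith)
    (by
      intro t v hre hb _
      have h1 := hnext t v hre hb
      have h2 := hD.enl L.g t v hg hL.g_le (og_J0_reach_DomR D hD L hL hre)
      have h3 := (abs_le.1 h2).1
      linarith)
    (fun t v hre => hD.Eg_nn L.g t v hg hL.g_le (og_J0_reach_DomR D hD L hL hre))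
    t v hre hre.2.1 hb
  have h2 := hD.enl L.g t v hg hL.g_le (og_J0_reach_DomR D hD L hL hre)
  have h3 := (abs_le.1 h2).2
  have h4 : ∫ y in (v - L.h)..(L.cell D (j + 1)), D.G {L.q} L.h y
      ≤ ∫ y in (L.cell D j - L.h)..(L.cell D (j + 1)), D.G {L.q} L.h y := by
    have a1 := intervalIntegral.integral_add_adjacent_intervals (hGi (L.cell D j - L.h) (v - L.h)) (hGi (v - L.h) (L.cell D (j + 1)))
    have a2 : 0 ≤ ∫ y in (L.cell D j - L.h)..(v - L.h), D.G {L.q} L.h y :=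
      intervalIntegral.integral_nonneg (by linarith) fun y _ => hG0 y
    linarith
  linarith

theorem og_J0_chain (D : OgData) (hD : D.Ok) (L : OgLoc) (hL : L.Ok D) (lam : ℕ → ℝ)
    (hlam : ∀ j, 0 ≤ lam j)
    (hcell : ∀ j, j < L.N → ∀ R, 0 ≤ R → L.Low D (j + 1) R → L.Low D j (R + lam j)) :
    D.Γ * L.r - ∑ j ∈ Finset.range L.N, lam j ≤ D.E L.ts (L.ε * L.r) := by
  have hbase : L.Low D L.N 0 := by
    intro t v hre hv
    rw [og_J0_cell_N D L hL] at hv
    exact absurd (og_J0_reach_lt D hD L hL hre) (not_lt.2 hv)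
  have hind : ∀ i, i ≤ L.N → L.Low D (L.N - i) (∑ j ∈ Finset.Ico (L.N - i) L.N, lam j) := by
    intro i
    induction i with
    | zero =>
      intro _
      simpa using hbase
    | succ i ih =>
      intro hi
      have h1 := ih (by omega)
      have e1 : L.N - i = (L.N - (i + 1)) + 1 := by omega
      rw [e1] at h1
      have h2 := hcell (L.N - (i + 1)) (by omega) _ (Finset.sum_nonneg fun j _ => hlam j) h1
      rw [Finset.sum_eq_sum_Ico_succ_bot (show L.N - (i + 1) < L.N by omega),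
        add_comm (lam (L.N - (i + 1)))]
      exact h2
  have h0 := hind L.N le_rfl
  rw [Nat.sub_self, ← Finset.range_eq_Ico] at h0
  have hεr : 0 < L.ε * L.r := mul_pos hL.ε_pos hL.r_pos
  have h1 := h0 L.ts (L.ε * L.r) ⟨le_rfl, by unfold OgLoc.T; linarith [hL.r_pos], le_rfl, by simp⟩
    (by unfold OgLoc.cell; simpa using hεr.le)
  have e : L.T - L.ts = L.r := by unfold OgLoc.T; ring
  rw [e] at h1
  exact h1

theorem og_J0_param (D : OgData) (hD : D.Ok) (hJ : D.J = 0) (ε : ℝ) (hε0 : 0 < ε) (hε1 : ε < 1) :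
    ∃ L : OgLoc, L.Ok D ∧ L.ε = ε ∧
      (∑ j ∈ Finset.range L.N,
        min (volume (Set.Icc (L.cell D j) (L.cell D (j + 1)) ∩ L.P D)).toReal
          (volume (Set.Icc (L.cell D j) (L.cell D (j + 1)) \ L.P D)).toReal ≤ ε * L.r) ∧
      2 * L.N * D.Ce * L.g ≤ ε * L.r ∧ L.N * (D.Γ + D.Ks + 1) * L.h ≤ ε * L.r ∧
      (∀ j, j < L.N → ∫ y in (L.cell D j)..(L.cell D (j + 1)), D.G {L.q} L.h y ≤
        (D.Ks + 1) * (volume (Set.Icc (L.cell D j) (L.cell D (j + 1)) ∩ D.Pos {L.q})).toReal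
          + ε * L.r / L.N) ∧
      (volume (L.Tr D)).toReal ≤ ε * L.r := by
  obtain ⟨r, ts, hr, hts0, hts1, hlen, hTr⟩ := og_J0_setup D hD hJ ε hε0
  obtain ⟨q, hq0, hq1⟩ := exists_rat_btwn (show ts + 5 / 4 * r < ts + 7 / 4 * r by linarith)
  have hεr : 0 < ε * r := mul_pos hε0 hr
  have hKx : 1 ≤ D.Kx := le_max_of_le_left hD.kp_one
  have hlen0 : 0 < (D.Kx + 1) * r := by positivity
  have hPm : MeasurableSet {v : ℝ | 0 < v ∧ v ≤ (D.Kx + 1) * r ∧ 0 < D.m ts v} := by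
    have h1 : MeasurableSet {v : ℝ | 0 < D.m ts v} := measurableSet_lt measurable_const (hD.m_meas ts)
    have h2 : {v : ℝ | 0 < v ∧ v ≤ (D.Kx + 1) * r ∧ 0 < D.m ts v}
        = Set.Ioc 0 ((D.Kx + 1) * r) ∩ {v : ℝ | 0 < D.m ts v} := by
      ext v
      simp only [Set.mem_ofPred_eq, Set.mem_inter_iff, Set.mem_Ioc]
      tauto
    rw [h2]
    exact measurableSet_Ioc.inter h1
  obtain ⟨N, hN, hcells⟩ := og_cells _ hPm ((D.Kx + 1) * r) (ε * r) hlen0 hεr
  have hN0 : (0 : ℝ) < N := by exact_mod_cast hN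
  have hA0 := hD.A0_nn
  have hCe := hD.Ce_nn
  have hΓ := hD.Γ_pos
  have hKs := hD.Ks_nn
  -- the enlargement
  obtain ⟨g, hg0, hg1, hg2, hg3⟩ : ∃ g : ℝ, 0 < g ∧ g ≤ D.g0 ∧ D.A0 * g < r / 8 ∧
      2 * N * D.Ce * g ≤ ε * r := by
    refine ⟨min D.g0 (min (r / (16 * (D.A0 + 1))) (ε * r / (2 * N * (D.Ce + 1)))), ?_, ?_, ?_, ?_⟩
    · exact lt_min hD.g0_pos (lt_min (by positivity) (by positivity))
    · exact min_le_left _ _
    · have h1 : min D.g0 (min (r / (16 * (D.A0 + 1))) (ε * r / (2 * N * (D.Ce + 1))))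
          ≤ r / (16 * (D.A0 + 1)) := (min_le_right _ _).trans (min_le_left _ _)
      have h2 : D.A0 * (r / (16 * (D.A0 + 1))) ≤ r / 16 := by
        rw [← mul_div_assoc, div_le_div_iff₀ (by positivity) (by norm_num)]
        nlinarith
      have h3 := mul_le_mul_of_nonneg_left h1 hA0
      linarith
    · have h1 : min D.g0 (min (r / (16 * (D.A0 + 1))) (ε * r / (2 * N * (D.Ce + 1))))
          ≤ ε * r / (2 * N * (D.Ce + 1)) := (min_le_right _ _).trans (min_le_right _ _)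
      have h2 : 2 * N * D.Ce * (ε * r / (2 * N * (D.Ce + 1))) ≤ ε * r := by
        rw [← mul_div_assoc, div_le_iff₀ (by positivity)]
        nlinarith [mul_pos hεr hN0]
      have h3 := mul_le_mul_of_nonneg_left h1 (show 0 ≤ 2 * N * D.Ce by positivity)
      linarith
  obtain ⟨ρ, hρ, hstep⟩ := hD.step g hg0 hg1 (ε * r) hεr
  -- the gap
  have hc : 0 < min ρ (min (ε * r / 2) (ε * r / (N * (D.Γ + D.Ks + 1)))) :=
    lt_min hρ (lt_min (by positivity) (by positivity))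
  have hev1 : ∀ᶠ h in 𝓝[>] (0 : ℝ),
      h ∈ Set.Ioo 0 (min ρ (min (ε * r / 2) (ε * r / (N * (D.Γ + D.Ks + 1))))) :=
    Ioo_mem_nhdsGT hc
  have hqS : ∀ q' ∈ ({q} : Finset ℚ), D.t0 < (q' : ℝ) ∧ (q' : ℝ) < D.t1 := by
    intro q' hq'
    rw [Finset.mem_singleton] at hq'
    subst hq'
    constructor <;> linarith
  have hev2 : ∀ᶠ h in 𝓝[>] (0 : ℝ), ∀ j ∈ Finset.range N,
      ∫ y in ((j : ℝ) * ((D.Kx + 1) * r / N))..(((j + 1 : ℕ) : ℝ) * ((D.Kx + 1) * r / N)), D.G {q} h y ≤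
        (({q} : Finset ℚ).card : ℝ) * (D.Ks + 1) * (volume (Set.Icc ((j : ℝ) * ((D.Kx + 1) * r / N))
          (((j + 1 : ℕ) : ℝ) * ((D.Kx + 1) * r / N)) ∩ D.Pos {q})).toReal + ε * r / N := by
    rw [Filter.eventually_all_finset]
    intro j _
    refine og_G_lim D hD {q} hqS _ _ ?_ _ (by positivity)
    refine mul_le_mul_of_nonneg_right ?_ (by positivity)
    push_cast
    linarith
  obtain ⟨h, ⟨hh0, hhc⟩, hh2⟩ := (hev1.and hev2).exists
  have hh1 : h ≤ ρ := hhc.le.trans (min_le_left _ _)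
  have hh3 : h < ε * r / 2 := hhc.trans_le ((min_le_right _ _).trans (min_le_left _ _))
  have hh4 : h ≤ ε * r / (N * (D.Γ + D.Ks + 1)) :=
    hhc.le.trans ((min_le_right _ _).trans (min_le_right _ _))
  refine ⟨⟨ts, r, ε, q, N, g, h⟩, ?_, rfl, hcells, hg3, ?_, ?_, hTr⟩
  · refine ⟨hJ, hr, hε0, hε1, hts0, hts1, hlen, hq0, hq1, hN, hg0, hg1, hg2, hh0, hh3, ?_⟩
    intro t v ht0 ht1 hv0 hv1
    refine hstep h t v hh0 hh1 ht0 ht1 ?_ ?_
    · rw [hJ]; simpa using hv0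
    · rw [hJ]; simpa using hv1
  · rw [le_div_iff₀ (by positivity)] at hh4
    show (N : ℝ) * (D.Γ + D.Ks + 1) * h ≤ ε * r
    linarith
  · intro j hj
    have := hh2 j (Finset.mem_range.2 hj)
    rw [Finset.card_singleton, Nat.cast_one, one_mul] at this
    exact this

theorem og_J0 (D : OgData) (hD : D.Ok) (hJ : D.J = 0) : False := by
  have hΓ := hD.Γ_pos
  have hKs := hD.Ks_nn
  have hLip := hD.Lip_nn
  have hCe := hD.Ce_nn
  have hkp := hD.kp_one
  have hC0 : 2 * D.Γ ≤ D.C0 := by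
    unfold OgData.C0
    have : 0 ≤ D.Lip * (1 + D.kp) := by positivity
    linarith
  obtain ⟨K, hK⟩ : ∃ K : ℝ, K = D.Lip + D.C0 + 2 * D.Ks + 8 := ⟨_, rfl⟩
  have hK0 : 0 < K := by linarith
  obtain ⟨ε, hεdef⟩ : ∃ ε : ℝ, ε = D.Γ / (2 * K) := ⟨_, rfl⟩
  have hε0 : 0 < ε := by rw [hεdef]; positivity
  have hε1 : ε < 1 := by rw [hεdef, div_lt_one (by positivity)]; linarith
  have hεK : ε * K = D.Γ / 2 := by rw [hεdef]; field_simp
  obtain ⟨L, hL, hLε, hmin, hg, hh, hG, hTr⟩ := og_J0_param D hD hJ ε hε0 hε1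
  have hr := hL.r_pos
  have hh0 := hL.h_pos
  have hg0 := hL.g_pos
  have hN := hL.N_pos
  have hN0 : (0 : ℝ) < L.N := by exact_mod_cast hN
  have hεr : 0 < ε * L.r := mul_pos hε0 hr
  have hKx : 1 ≤ D.Kx := le_max_of_le_left hD.kp_one
  have hlen0 : 0 < L.len D := by unfold OgLoc.len; positivity
  have hstep0 : 0 < L.len D / L.N := by positivity
  have hcm : ∀ j, L.cell D j ≤ L.cell D (j + 1) := by
    intro j
    unfold OgLoc.cell
    refine mul_le_mul_of_nonneg_right ?_ hstep0.le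
    push_cast; linarith
  have hcN : ∀ j, j < L.N → L.cell D (j + 1) ≤ L.len D := by
    intro j hj
    unfold OgLoc.cell
    have h1 : ((j + 1 : ℕ) : ℝ) ≤ L.N := by exact_mod_cast hj
    calc ((j + 1 : ℕ) : ℝ) * (L.len D / L.N) ≤ L.N * (L.len D / L.N) :=
          mul_le_mul_of_nonneg_right h1 hstep0.le
      _ = L.len D := by field_simp
  have hfin : ∀ (j : ℕ) (A : Set ℝ), volume (Set.Icc (L.cell D j) (L.cell D (j + 1)) ∩ A) ≠ ⊤ :=
    fun j A => ne_top_of_le_ne_top (by rw [Real.volume_Icc]; exact ENNReal.ofReal_ne_top)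
      (measure_mono Set.inter_subset_left)
  -- the transition widths are measurable
  have hTrm : MeasurableSet (L.Tr D) := by
    have h1 : MeasurableSet {v : ℝ | 0 < D.m L.ts v} := measurableSet_lt measurable_const (hD.m_meas _)
    have h2 : MeasurableSet {v : ℝ | 0 < D.m (L.ts + 2 * L.r) v} :=
      measurableSet_lt measurable_const (hD.m_meas _)
    have h3 : L.Tr D = Set.Ioc 0 (L.len D) ∩ ({v : ℝ | 0 < D.m (L.ts + 2 * L.r) v} ∩ {v : ℝ | 0 < D.m L.ts v}ᶜ) := by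
      ext v
      simp only [OgLoc.Tr, Set.mem_ofPred_eq, Set.mem_inter_iff, Set.mem_Ioc, Set.mem_compl_iff]
      tauto
    rw [h3]
    exact measurableSet_Ioc.inter (h2.inter h1.compl)
  -- charged widths
  have hsub : ∀ j, j < L.N → Set.Icc (L.cell D j) (L.cell D (j + 1)) ∩ D.Pos {L.q} ⊆
      (Set.Icc (L.cell D j) (L.cell D (j + 1)) ∩ L.P D) ∪ (Set.Icc (L.cell D j) (L.cell D (j + 1)) ∩ L.Tr D) := by
    rintro j hj y ⟨hyC, q', hq', hyS, hym⟩
    rw [Finset.mem_singleton] at hq'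
    subst hq'
    have hy0 : 0 < y := by have := hyS.2; rwa [hJ, zero_mul] at this
    have hy1 : y ≤ L.len D := hyC.2.trans (hcN j hj)
    have hm : D.m (L.q : ℝ) y ≤ D.m (L.ts + 2 * L.r) y :=
      hD.m_mono y _ _ (og_DomR_Dom D hD _ _ hyS.1) (by linarith [hL.q1]) hL.ts1
    by_cases hp : 0 < D.m L.ts y
    · exact Or.inl ⟨hyC, hy0, hy1, hp⟩
    · exact Or.inr ⟨hyC, hy0, hy1, lt_of_lt_of_le hym hm, hp⟩
  have hw : ∀ j, j < L.N → (volume (Set.Icc (L.cell D j) (L.cell D (j + 1)) ∩ D.Pos {L.q})).toReal ≤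
      (volume (Set.Icc (L.cell D j) (L.cell D (j + 1)) ∩ L.P D)).toReal
        + (volume (Set.Icc (L.cell D j) (L.cell D (j + 1)) ∩ L.Tr D)).toReal := by
    intro j hj
    rw [← ENNReal.toReal_add (hfin j _) (hfin j _)]
    exact ENNReal.toReal_mono (ENNReal.add_ne_top.2 ⟨hfin j _, hfin j _⟩)
      ((measure_mono (hsub j hj)).trans (measure_union_le _ _))
  -- the integral of `G`
  have hGi := fun a b : ℝ => og_G_int D hD {L.q} L.h hh0 a b
  have hI : ∀ j, j < L.N → ∫ y in (L.cell D j - L.h)..(L.cell D (j + 1)), D.G {L.q} L.h y ≤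
      (D.Ks + 1) * L.h + (D.Ks + 1) * ((volume (Set.Icc (L.cell D j) (L.cell D (j + 1)) ∩ L.P D)).toReal
        + (volume (Set.Icc (L.cell D j) (L.cell D (j + 1)) ∩ L.Tr D)).toReal) + ε * L.r / L.N := by
    intro j hj
    rw [← intervalIntegral.integral_add_adjacent_intervals (hGi _ (L.cell D j)) (hGi _ _)]
    have h1 : ∫ y in (L.cell D j - L.h)..(L.cell D j), D.G {L.q} L.h y ≤
        ∫ _y in (L.cell D j - L.h)..(L.cell D j), (D.Ks + 1) := by
      refine intervalIntegral.integral_mono_on (by linarith) (hGi _ _) intervalIntegrable_const ?_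
      intro y _
      have := og_G_le D hD {L.q} L.h y hh0
      rwa [Finset.card_singleton, Nat.cast_one, one_mul] at this
    rw [intervalIntegral.integral_const, smul_eq_mul] at h1
    have h2 := hG j hj
    have h3 := mul_le_mul_of_nonneg_left (hw j hj) (show 0 ≤ D.Ks + 1 by linarith)
    nlinarith
  have hI0 : ∀ j, 0 ≤ ∫ y in (L.cell D j - L.h)..(L.cell D (j + 1)), D.G {L.q} L.h y := by
    intro j
    exact intervalIntegral.integral_nonneg (by linarith [hcm j]) fun y _ => og_G_nn D hD _ _ _ hh0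
  -- the chain
  have hchain := og_J0_chain D hD L hL
    (fun j => min (D.C0 * (volume (Set.Icc (L.cell D j) (L.cell D (j + 1)) \ L.P D)).toReal)
      (2 * D.Ce * L.g + D.Γ * L.h + ∫ y in (L.cell D j - L.h)..(L.cell D (j + 1)), D.G {L.q} L.h y))
    (fun j => le_min (mul_nonneg (by linarith) ENNReal.toReal_nonneg)
      (by have := hI0 j; positivity))
    (by
      intro j hj R hR hnext
      rcases min_choice (D.C0 * (volume (Set.Icc (L.cell D j) (L.cell D (j + 1)) \ L.P D)).toReal)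
        (2 * D.Ce * L.g + D.Γ * L.h + ∫ y in (L.cell D j - L.h)..(L.cell D (j + 1)), D.G {L.q} L.h y)
        with h | h
      · simp only [h]; exact og_J0_cellP D hD L hL j hj R hR hnext
      · simp only [h]; exact og_J0_cellZ D hD L hL j hj R hR hnext)
  -- the start is close to the seam
  have hE : D.E L.ts (L.ε * L.r) ≤ D.Lip * (ε * L.r) := by
    have hts1 : L.ts < D.t1 := by linarith [hL.ts1]
    have hlen : ε * L.r ≤ D.wd := by
      have h1 := hL.len_lt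
      unfold OgLoc.len at h1
      nlinarith
    have h1 := hD.E_lip L.ts (L.ε * L.r) L.ts (D.J * L.ts)
      ⟨hL.ts0, hts1, by rw [hLε]; exact hεr.le, by rw [hLε, hJ]; linarith⟩
      ⟨hL.ts0, hts1, by rw [hJ]; simp, by rw [hJ]; linarith [hD.wd_pos]⟩
    rw [hD.seam L.ts hL.ts0 hts1, hJ, hLε, sub_zero, sub_self, abs_zero, zero_add, zero_mul, sub_zero,
      abs_of_pos hεr] at h1
    rw [hLε]
    exact (le_abs_self _).trans h1
  -- each cell
  have hcellb : ∀ j ∈ Finset.range L.N,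
      min (D.C0 * (volume (Set.Icc (L.cell D j) (L.cell D (j + 1)) \ L.P D)).toReal)
      (2 * D.Ce * L.g + D.Γ * L.h + ∫ y in (L.cell D j - L.h)..(L.cell D (j + 1)), D.G {L.q} L.h y)
      ≤ (D.C0 + D.Ks + 1) * min (volume (Set.Icc (L.cell D j) (L.cell D (j + 1)) ∩ L.P D)).toReal
          (volume (Set.Icc (L.cell D j) (L.cell D (j + 1)) \ L.P D)).toReal
        + (D.Ks + 1) * (volume (Set.Icc (L.cell D j) (L.cell D (j + 1)) ∩ L.Tr D)).toReal
        + (2 * D.Ce * L.g + (D.Γ + D.Ks + 1) * L.h + ε * L.r / L.N) := by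
    intro j hj
    have hj' := Finset.mem_range.1 hj
    have h1 := hI j hj'
    have hx : 0 ≤ (volume (Set.Icc (L.cell D j) (L.cell D (j + 1)) \ L.P D)).toReal := ENNReal.toReal_nonneg
    have hy : 0 ≤ (volume (Set.Icc (L.cell D j) (L.cell D (j + 1)) ∩ L.P D)).toReal := ENNReal.toReal_nonneg
    have hz : 0 ≤ (volume (Set.Icc (L.cell D j) (L.cell D (j + 1)) ∩ L.Tr D)).toReal := ENNReal.toReal_nonneg
    generalize (volume (Set.Icc (L.cell D j) (L.cell D (j + 1)) \ L.P D)).toReal = x at hx ⊢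
    generalize (volume (Set.Icc (L.cell D j) (L.cell D (j + 1)) ∩ L.P D)).toReal = y at hy h1 ⊢
    generalize (volume (Set.Icc (L.cell D j) (L.cell D (j + 1)) ∩ L.Tr D)).toReal = z at hz h1 ⊢
    have hz' : 0 ≤ (D.Ks + 1) * z := by positivity
    have ha : 0 ≤ 2 * D.Ce * L.g + (D.Γ + D.Ks + 1) * L.h + ε * L.r / L.N := by positivity
    rcases le_total x y with hxy | hxy
    · rw [min_eq_right hxy]
      refine (min_le_left _ _).trans ?_
      have : 0 ≤ (D.Ks + 1) * x := by positivity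
      nlinarith
    · rw [min_eq_left hxy]
      refine (min_le_right _ _).trans ?_
      have : 0 ≤ D.C0 * y := mul_nonneg (by linarith) hy
      nlinarith
  have hsum := Finset.sum_le_sum hcellb
  rw [Finset.sum_add_distrib, Finset.sum_add_distrib, ← Finset.mul_sum, ← Finset.mul_sum,
    Finset.sum_const, Finset.card_range, nsmul_eq_mul] at hsum
  have hz : ∑ j ∈ Finset.range L.N, (volume (Set.Icc (L.cell D j) (L.cell D (j + 1)) ∩ L.Tr D)).toReal
      ≤ ε * L.r := by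
    refine (og_sum_cells (L.Tr D) hTrm (L.len D) hlen0 L.N hN).trans (le_trans ?_ hTr)
    refine ENNReal.toReal_mono ?_ (measure_mono Set.inter_subset_right)
    refine ne_top_of_le_ne_top (by rw [Real.volume_Icc]; exact ENNReal.ofReal_ne_top)
      (measure_mono (t := Set.Icc 0 (L.len D)) ?_)
    intro v hv
    exact ⟨hv.1.le, hv.2.1⟩
  have h1 := mul_le_mul_of_nonneg_left hmin (show 0 ≤ D.C0 + D.Ks + 1 by linarith)
  have h2 := mul_le_mul_of_nonneg_left hz (show 0 ≤ D.Ks + 1 by linarith)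
  have h3 : (L.N : ℝ) * (2 * D.Ce * L.g + (D.Γ + D.Ks + 1) * L.h + ε * L.r / L.N)
      = 2 * L.N * D.Ce * L.g + L.N * (D.Γ + D.Ks + 1) * L.h + ε * L.r := by
    field_simp
  have h4 : D.Γ * L.r = 2 * (K * (ε * L.r)) := by
    have : K * (ε * L.r) = (ε * K) * L.r := by ring
    rw [this, hεK]; ring
  have h5 : 0 < D.Γ * L.r := mul_pos hΓ hr
  rw [hK] at h4
  linarith

end Claimed.Agent.R256
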