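import Claimed.Agent.R256.Og.Def

/-!
# Row 256, unit OG, file 2: the one-dimensional lemmas      (architect helper277)

* `og_lip_dini`  LEAF OG-A1: a Lipschitz function whose upper right Dini derivative is `≤ c` a.e. off a measurable set `B`.
  Route: `LipschitzOnWith` on `Icc a b` → `AbsolutelyContinuousOnInterval` → `AbsolutelyContinuousOnInterval.integral_deriv_eq_sub`;
  a.e. `deriv φ x ≤ c` off `B` (a derivative is a limit of right difference quotients) and `deriv φ x ≤ M` everywhere.
* `og_min_trick` LEAF OG-A2: from A1 applied to `fun x => min (ψ x) 0`, `c = 0`.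
-/

set_option autoImplicit false

namespace Claimed.Agent.R256

open MeasureTheory Filter Topology

/-- a derivative is bounded by any eventual bound of the right difference quotients -/
theorem og_deriv_le_of_right (φ : ℝ → ℝ) (x d K : ℝ) (hφ : HasDerivAt φ d x)
    (h : ∀ᶠ h in 𝓝[>] (0 : ℝ), φ (x + h) - φ x ≤ K * h) : d ≤ K := by
  have h1 : Tendsto (fun h : ℝ => h⁻¹ * (φ (x + h) - φ x)) (𝓝[>] 0) (𝓝 d) := by
    have := hφ.tendsto_slope_zero_right
    simpa using this
  refine le_of_tendsto h1 ?_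
  filter_upwards [h, self_mem_nhdsWithin] with t ht ht0
  have ht0' : (0 : ℝ) < t := ht0
  rw [inv_mul_le_iff₀ ht0']
  linarith

theorem og_lip_dini (φ : ℝ → ℝ) (a b M c : ℝ) (hab : a ≤ b) (hcM : c ≤ M)
    (hL : ∀ x ∈ Set.Icc a b, ∀ y ∈ Set.Icc a b, |φ x - φ y| ≤ M * |x - y|)
    (B : Set ℝ) (hB : MeasurableSet B)
    (hd : ∀ᵐ x : ℝ, x ∈ Set.Ioo a b → x ∉ B → OgDiniLe φ x c) :
    φ b - φ a ≤ c * (b - a) + (M - c) * (volume (B ∩ Set.Icc a b)).toReal := by
  rcases hab.eq_or_lt with rfl | hlt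
  · have h0 : 0 ≤ (M - c) * (volume (B ∩ Set.Icc a a)).toReal :=
      mul_nonneg (by linarith) ENNReal.toReal_nonneg
    simpa using h0
  have hM : 0 ≤ M := by
    have h1 := hL a ⟨le_rfl, hab⟩ b ⟨hab, le_rfl⟩
    have h2 : 0 < |a - b| := abs_pos.mpr (by linarith)
    by_contra hneg
    push Not at hneg
    have h3 : M * |a - b| < 0 := mul_neg_of_neg_of_pos hneg h2
    linarith [abs_nonneg (φ a - φ b)]
  have hLip : LipschitzOnWith ⟨M, hM⟩ φ (Set.uIcc a b) := by
    rw [Set.uIcc_of_le hab]
    apply LipschitzOnWith.of_dist_le_mul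
    intro x hx y hy
    rw [Real.dist_eq, Real.dist_eq]
    exact hL x hx y hy
  have hac := hLip.absolutelyContinuousOnInterval
  have hint := hac.integral_deriv_eq_sub
  have hii := hac.intervalIntegrable_deriv
  have hdiff := hac.ae_differentiableAt
  obtain ⟨g, hg⟩ : ∃ g : ℝ → ℝ, g = fun x => c + (M - c) * B.indicator (fun _ => (1 : ℝ)) x :=
    ⟨_, rfl⟩
  have hbound : ∀ᵐ x : ℝ, x ∈ Set.Ioo a b → deriv φ x ≤ g x := by
    filter_upwards [hdiff, hd] with x hx1 hx2 hx
    have hxI : x ∈ Set.uIcc a b := by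
      rw [Set.uIcc_of_le hab]; exact Set.Ioo_subset_Icc_self hx
    have hD := (hx1 hxI).hasDerivAt
    by_cases hxB : x ∈ B
    · have hgx : g x = M := by simp [hg, hxB]
      rw [hgx]
      apply og_deriv_le_of_right φ x _ M hD
      have hev : ∀ᶠ h in 𝓝[>] (0 : ℝ), h < b - x :=
        nhdsWithin_le_nhds (Iio_mem_nhds (by linarith [hx.2]))
      filter_upwards [hev, self_mem_nhdsWithin] with h hh hh0
      have hh0' : (0 : ℝ) < h := hh0
      have h1 := hL (x + h) ⟨by linarith [hx.1], by linarith⟩ x ⟨hx.1.le, hx.2.le⟩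
      have h2 : x + h - x = h := by ring
      rw [h2, abs_of_pos hh0'] at h1
      exact (le_abs_self _).trans h1
    · have hgx : g x = c := by simp [hg, hxB]
      rw [hgx]
      apply le_of_forall_pos_le_add
      intro ε hε
      exact og_deriv_le_of_right φ x _ (c + ε) hD (hx2 hx hxB ε hε)
  have hind : IntervalIntegrable (B.indicator (fun _ => (1 : ℝ))) volume a b := by
    rw [intervalIntegrable_iff]
    exact (integrableOn_const (by simp)).indicator hB
  have hgi : IntervalIntegrable g volume a b := by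
    rw [hg]
    exact intervalIntegrable_const.add (hind.const_mul _)
  have hle : ∫ x in a..b, deriv φ x ≤ ∫ x in a..b, g x := by
    apply intervalIntegral.integral_mono_ae_restrict hab hii hgi
    rw [← Measure.restrict_congr_set Ioo_ae_eq_Icc]
    exact (ae_restrict_iff' measurableSet_Ioo).mpr hbound
  have hindI : ∫ x in a..b, B.indicator (fun _ => (1 : ℝ)) x
      = (volume (B ∩ Set.Icc a b)).toReal := by
    rw [intervalIntegral.integral_of_le hab, ← integral_Icc_eq_integral_Ioc,
      integral_indicator hB, Measure.restrict_restrict hB]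
    simp [Measure.real]
  have hgI : ∫ x in a..b, g x = c * (b - a) + (M - c) * (volume (B ∩ Set.Icc a b)).toReal := by
    rw [hg, intervalIntegral.integral_add intervalIntegrable_const (hind.const_mul _),
      intervalIntegral.integral_const_mul, hindI]
    simp [mul_comm]
  linarith

theorem og_min_trick (ψ : ℝ → ℝ) (a b M : ℝ) (hab : a ≤ b) (hM : 0 ≤ M)
    (hL : ∀ x ∈ Set.Icc a b, ∀ y ∈ Set.Icc a b, |ψ x - ψ y| ≤ M * |x - y|)
    (B : Set ℝ) (hB : MeasurableSet B)
    (hd : ∀ᵐ x : ℝ, x ∈ Set.Ioo a b → x ∉ B → OgDiniLe ψ x 0 ∨ 0 ≤ ψ x) :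
    min (ψ b) 0 - M * (volume (B ∩ Set.Icc a b)).toReal ≤ ψ a := by
  have hLφ : ∀ x ∈ Set.Icc a b, ∀ y ∈ Set.Icc a b, |min (ψ x) 0 - min (ψ y) 0| ≤ M * |x - y| := by
    intro x hx y hy
    refine le_trans ?_ (hL x hx y hy)
    have := abs_min_sub_min_le_max (ψ x) 0 (ψ y) 0
    simpa using this
  have hdφ : ∀ᵐ x : ℝ, x ∈ Set.Ioo a b → x ∉ B → OgDiniLe (fun x => min (ψ x) 0) x 0 := by
    filter_upwards [hd] with x hx h1 h2
    intro ε hε
    by_cases h0 : 0 ≤ ψ x
    · filter_upwards [self_mem_nhdsWithin] with h hh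
      have hh' : (0 : ℝ) < h := hh
      simp only [min_eq_right h0]
      have : min (ψ (x + h)) 0 ≤ 0 := min_le_right _ _
      have h3 : 0 ≤ (0 + ε) * h := by positivity
      linarith
    · have h4 := (hx h1 h2).resolve_right h0
      filter_upwards [h4 ε hε] with h hh
      simp only [min_eq_left (not_le.1 h0).le]
      have : min (ψ (x + h)) 0 ≤ ψ (x + h) := min_le_left _ _
      linarith
  have key := og_lip_dini (fun x => min (ψ x) 0) a b M 0 hab hM hLφ B hB hdφ
  simp only [zero_mul, zero_add, sub_zero] at key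
  have : min (ψ a) 0 ≤ ψ a := min_le_left _ _
  linarith

end Claimed.Agent.R256
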