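import Claimed.Agent.R256.Og.CaseJ
import Claimed.Agent.R256.Og.J0

/-!
# Row 256, unit OG, file 10: Lemma act:off-gap-path      (architect helper277)
-/

set_option autoImplicit false

namespace Claimed.Agent.R256

open MeasureTheory Filter Topology

/-- **Lemma act:off-gap-path**: the hypotheses `OgData.Ok` (which contain `Γ > 0`) are contradictory. -/
theorem og_main (D : OgData) (hD : D.Ok) : False := by
  rcases hD.J_nn.eq_or_lt with hJ | hJ
  · exact og_J0 D hD hJ.symm
  · by_cases h : ∃ q : ℚ, D.t0 < (q : ℝ) ∧ (q : ℝ) < D.t1 ∧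
        0 < volume {v : ℝ | D.DomS (q : ℝ) v ∧ v < D.J * D.t1 ∧ 0 < D.m (q : ℝ) v}
    · obtain ⟨q, h0, h1, hp⟩ := h
      exact og_caseP D hD hJ q h0 h1 hp
    · refine og_caseZ D hD hJ fun q h0 h1 => ?_
      by_contra hne
      exact h ⟨q, h0, h1, pos_iff_ne_zero.2 hne⟩

end Claimed.Agent.R256
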