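import Claimed.Agent.R256.Og.Lip
import Claimed.Agent.R256.Og.Ae
import Claimed.Agent.R256.Og.G

/-!
# Row 256, unit OG, file 7: the positive segment      (architect helper277)

Paper l.916-951, (act:positive-segment) / (act:terminal-freeze), in ONE inequality with a `min`.
* LEAF OG-P1: `og_gen_ae` (from `Ok.surplus`, `og_ae_shear`), `og_vert` (from `Ok.freeze`, `og_ae_vert`, `og_lip_dini` with `B = ∅`, `c = -2Γ`, `φ = fun τ => E τ v` on `[t,T]`,
  `Ok.m_mono` keeps `m > k0`, `Ok.E_nn` at `T`).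
* LEAF OG-P2: `og_ps_gen`.  `ψ τ = E (t+τ) (v+kp τ) - 2Γ (T-t-τ)` on `[0,ℓ]` is `C0`-Lipschitz; `B = {τ | v + kp τ ∉ P}`, `|B ∩ [0,ℓ]| = |[v, v+kp ℓ] \ P| / kp`, `kp ≥ 1`.
  For a.e. `τ ∉ B`: `m (t+τ) (v+kp τ) ≥ m s (v+kp τ) > 0`; if it is `≤ k0`, `Gen` gives `OgDiniLe ψ τ 0`; otherwise `GenV (v + kp τ)` (a.e. `τ` by `og_ae_affine`) gives `ψ τ ≥ 0`.  Then `og_min_trick`.
* LEAF OG-P3: `og_ps` from `og_ps_gen` + `og_gen_ae`: generic `v' ↓ v` exist in every interval; both sides are continuous in `v` (`Ok.E_lip`; the measure term moves by `≤ 2 |v - v'|`).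
-/

set_option autoImplicit false

namespace Claimed.Agent.R256

open MeasureTheory Filter Topology

theorem og_gen_ae (D : OgData) (hD : D.Ok) : ∀ᵐ w : ℝ, D.Gen w :=
  og_ae_shear D.kp _ hD.surplus

theorem og_vert (D : OgData) (hD : D.Ok) : ∀ᵐ v : ℝ, D.GenV v := by
  filter_upwards [og_ae_vert _ hD.freeze] with v hv
  intro t T hdom htT hT hm
  have hdomx : ∀ x, t ≤ x → x ≤ T → D.Dom x v := by
    intro x h1 h2
    refine ⟨lt_of_lt_of_le hdom.1 h1, lt_of_le_of_lt h2 hT, hdom.2.2.1, hdom.2.2.2.trans ?_⟩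
    have := mul_le_mul_of_nonneg_left h1 hD.J_nn
    linarith
  have hΓ := hD.Γ_pos
  have key := og_lip_dini (fun τ => D.E τ v) t T D.Lip (-(2 * D.Γ)) htT
    (by have := hD.Lip_nn; linarith)
    (fun x hx y hy => by
      have := hD.E_lip x v y v (hdomx x hx.1 hx.2) (hdomx y hy.1 hy.2)
      simpa using this)
    ∅ MeasurableSet.empty (by
      filter_upwards [hv] with x hx hxI _
      have h1 := hx (hdomx x hxI.1.le hxI.2.le)
        (lt_of_lt_of_le hm (hD.m_mono v t x hdom hxI.1.le (lt_trans hxI.2 hT)))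
      intro ε hε
      filter_upwards [h1 ε hε] with h hh
      simpa using hh)
  have hE := hD.E_nn T v (hdomx T htT le_rfl)
  simp only [Set.empty_inter, measure_empty, ENNReal.toReal_zero, mul_zero, add_zero] at key
  nlinarith

theorem og_ps_gen (D : OgData) (hD : D.Ok) (P : Set ℝ) (hP : MeasurableSet P) (s T t v ℓ : ℝ)
    (hw : D.Gen (v - D.kp * t))
    (hPm : ∀ x ∈ P, D.Dom s x ∧ 0 < D.m s x) (hst : s ≤ t) (hℓ : 0 ≤ ℓ) (htT : t + ℓ ≤ T)
    (hT : T < D.t1) (ht0 : D.t0 < t) (h0 : D.J * t ≤ v) (h1 : v + D.kp * ℓ ≤ D.J * t + D.wd) :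
    min (2 * D.Γ * ℓ + D.E (t + ℓ) (v + D.kp * ℓ)) (2 * D.Γ * (T - t))
      - D.C0 * (volume (Set.Icc v (v + D.kp * ℓ) \ P)).toReal ≤ D.E t v := by
  have hkp := hD.kp_one
  have hkp0 : 0 < D.kp := by linarith
  have hΓ := hD.Γ_pos
  have hJ := hD.J_nn
  have hJkp := hD.J_lt_kp
  have hLip := hD.Lip_nn
  have hC0 : 0 ≤ D.C0 := by
    unfold OgData.C0
    have : 0 ≤ D.Lip * (1 + D.kp) := mul_nonneg hLip (by linarith)
    linarith
  -- the segment lies in `DomR`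
  have hdomR : ∀ τ ∈ Set.Icc (0 : ℝ) ℓ, D.DomR (t + τ) (v + D.kp * τ) := by
    intro τ hτ
    refine ⟨by linarith [hτ.1], by linarith [hτ.2], ?_, ?_⟩
    · have h2 : D.J * τ ≤ D.kp * τ := mul_le_mul_of_nonneg_right hJkp.le hτ.1
      rw [mul_add]; linarith
    · have h2 : D.kp * τ ≤ D.kp * ℓ := mul_le_mul_of_nonneg_left hτ.2 hkp0.le
      have h3 : 0 ≤ D.J * τ := mul_nonneg hJ hτ.1
      rw [mul_add]; linarith
  have hdom : ∀ τ ∈ Set.Icc (0 : ℝ) ℓ, D.Dom (t + τ) (v + D.kp * τ) := fun τ hτ =>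
    og_DomR_Dom D hD _ _ (hdomR τ hτ)
  obtain ⟨ψ, hψ⟩ : ∃ ψ : ℝ → ℝ,
      ψ = fun τ => D.E (t + τ) (v + D.kp * τ) - 2 * D.Γ * (T - t - τ) := ⟨_, rfl⟩
  have hψL : ∀ x ∈ Set.Icc (0 : ℝ) ℓ, ∀ y ∈ Set.Icc (0 : ℝ) ℓ,
      |ψ x - ψ y| ≤ D.C0 * |x - y| := by
    intro x hx y hy
    have h2 := hD.E_lip _ _ _ _ (hdom x hx) (hdom y hy)
    have e1 : t + x - (t + y) = x - y := by ring
    have e2 : v + D.kp * x - (v + D.kp * y) = D.kp * (x - y) := by ring
    rw [e1, e2, abs_mul, abs_of_pos hkp0] at h2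
    have e3 : ψ x - ψ y = (D.E (t + x) (v + D.kp * x) - D.E (t + y) (v + D.kp * y))
        + 2 * D.Γ * (x - y) := by
      rw [hψ]; ring
    rw [e3]
    have h3 : |2 * D.Γ * (x - y)| = 2 * D.Γ * |x - y| := by
      rw [abs_mul, abs_of_pos (by linarith)]
    calc |(D.E (t + x) (v + D.kp * x) - D.E (t + y) (v + D.kp * y)) + 2 * D.Γ * (x - y)|
        ≤ |D.E (t + x) (v + D.kp * x) - D.E (t + y) (v + D.kp * y)| + |2 * D.Γ * (x - y)| :=
          abs_add_le _ _
      _ ≤ D.Lip * (|x - y| + D.kp * |x - y|) + 2 * D.Γ * |x - y| := by rw [h3]; linarith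
      _ = D.C0 * |x - y| := by unfold OgData.C0; ring
  obtain ⟨B, hBdef⟩ : ∃ B : Set ℝ, B = (fun τ => v + D.kp * τ) ⁻¹' Pᶜ := ⟨_, rfl⟩
  have hBm : MeasurableSet B := by
    rw [hBdef]; exact (by fun_prop : Measurable fun τ : ℝ => v + D.kp * τ) hP.compl
  have hgen := og_ae_affine 1 t one_ne_zero _ hw
  have hvert : ∀ᵐ τ : ℝ, D.GenV (v + D.kp * τ) :=
    og_ae_affine D.kp v hkp0.ne' _ (og_vert D hD)
  have hd : ∀ᵐ x : ℝ, x ∈ Set.Ioo 0 ℓ → x ∉ B → OgDiniLe ψ x 0 ∨ 0 ≤ ψ x := by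
    filter_upwards [hgen, hvert] with τ hg hv hτ hτB
    have hτI : τ ∈ Set.Icc (0 : ℝ) ℓ := Set.Ioo_subset_Icc_self hτ
    have hxP : v + D.kp * τ ∈ P := by
      rw [hBdef] at hτB; simpa using hτB
    obtain ⟨hds, hms⟩ := hPm _ hxP
    have hm1 : D.m s (v + D.kp * τ) ≤ D.m (t + τ) (v + D.kp * τ) :=
      hD.m_mono _ _ _ hds (by linarith [hτ.1]) (by linarith [hτ.2])
    have hmpos : 0 < D.m (t + τ) (v + D.kp * τ) := lt_of_lt_of_le hms hm1
    by_cases hk : D.m (t + τ) (v + D.kp * τ) ≤ D.k0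
    · left
      have e : v - D.kp * t + D.kp * (t + 1 * τ) = v + D.kp * τ := by ring
      rw [e, one_mul] at hg
      have hg' := hg (hdomR τ hτI) hmpos hk
      intro ε hε
      filter_upwards [hg' ε hε] with h hh
      rw [hψ]
      simp only [zero_add, add_zero, mul_zero] at hh ⊢
      have e4 : t + (τ + h) = t + τ + h := by ring
      have e5 : v + D.kp * (τ + h) = v + D.kp * τ + D.kp * h := by ring
      rw [e4, e5]
      linarith
    · right
      push Not at hk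
      have h5 := hv (t + τ) T (hdom τ hτI) (by linarith [hτ.2]) hT hk
      rw [hψ]
      show 0 ≤ D.E (t + τ) (v + D.kp * τ) - 2 * D.Γ * (T - t - τ)
      linarith
  have hmain := og_min_trick ψ 0 ℓ D.C0 hℓ hC0 hψL B hBm hd
  -- the measure of the bad times
  have hfin : volume (Set.Icc v (v + D.kp * ℓ) \ P) ≠ ⊤ :=
    ne_top_of_le_ne_top (by simp) (measure_mono Set.sdiff_subset : _ ≤ volume (Set.Icc v (v + D.kp * ℓ)))
  have hmeas : (volume (B ∩ Set.Icc 0 ℓ)).toReal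
      ≤ (volume (Set.Icc v (v + D.kp * ℓ) \ P)).toReal := by
    apply ENNReal.toReal_mono hfin
    have hsub : B ∩ Set.Icc 0 ℓ ⊆ (fun τ => D.kp * τ) ⁻¹' ((fun x => v + x) ⁻¹'
        (Set.Icc v (v + D.kp * ℓ) \ P)) := by
      intro τ hτ
      rw [hBdef] at hτ
      refine ⟨⟨?_, ?_⟩, hτ.1⟩
      · have := mul_nonneg hkp0.le hτ.2.1
        show v ≤ v + D.kp * τ
        linarith
      · have := mul_le_mul_of_nonneg_left hτ.2.2 hkp0.le
        show v + D.kp * τ ≤ v + D.kp * ℓ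
        linarith
    refine (measure_mono hsub).trans ?_
    rw [Real.volume_preimage_mul_left hkp0.ne', measure_preimage_add]
    have h6 : ENNReal.ofReal |D.kp⁻¹| ≤ 1 := by
      rw [abs_of_pos (inv_pos.mpr hkp0)]
      rw [ENNReal.ofReal_le_one]
      exact inv_le_one_of_one_le₀ hkp
    calc ENNReal.ofReal |D.kp⁻¹| * volume (Set.Icc v (v + D.kp * ℓ) \ P)
        ≤ 1 * volume (Set.Icc v (v + D.kp * ℓ) \ P) := by gcongr
      _ = _ := one_mul _
  have hmul := mul_le_mul_of_nonneg_left hmeas hC0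
  rw [hψ] at hmain
  simp only [add_zero, mul_zero, sub_zero] at hmain
  have e6 : min (2 * D.Γ * ℓ + D.E (t + ℓ) (v + D.kp * ℓ)) (2 * D.Γ * (T - t))
      = min (D.E (t + ℓ) (v + D.kp * ℓ) - 2 * D.Γ * (T - t - ℓ)) 0 + 2 * D.Γ * (T - t) := by
    rw [← min_add_add_right]
    congr 1 <;> ring
  rw [e6]
  linarith

theorem og_ps (D : OgData) (hD : D.Ok) (P : Set ℝ) (hP : MeasurableSet P) (s T t v ℓ : ℝ)
    (hPm : ∀ x ∈ P, D.Dom s x ∧ 0 < D.m s x) (hst : s ≤ t) (hℓ : 0 ≤ ℓ) (htT : t + ℓ ≤ T)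
    (hT : T < D.t1) (ht0 : D.t0 < t) (h0 : D.J * t < v) (h1 : v + D.kp * ℓ < D.J * t + D.wd) :
    min (2 * D.Γ * ℓ + D.E (t + ℓ) (v + D.kp * ℓ)) (2 * D.Γ * (T - t))
      - D.C0 * (volume (Set.Icc v (v + D.kp * ℓ) \ P)).toReal ≤ D.E t v := by
  have hkp := hD.kp_one
  have hkp0 : 0 < D.kp := by linarith
  have hΓ := hD.Γ_pos
  have hJ := hD.J_nn
  have hLip := hD.Lip_nn
  have ht_nn : 0 ≤ t := by linarith [hD.t0_nn]
  have hJt : 0 ≤ D.J * t := mul_nonneg hJ ht_nn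
  have hJl : 0 ≤ D.J * ℓ := mul_nonneg hJ hℓ
  have hkl : 0 ≤ D.kp * ℓ := mul_nonneg hkp0.le hℓ
  have hC0 : 0 ≤ D.C0 := by
    unfold OgData.C0
    have : 0 ≤ D.Lip * (1 + D.kp) := mul_nonneg hLip (by linarith)
    linarith
  obtain ⟨L, hL⟩ : ∃ L, L = D.kp * ℓ := ⟨_, rfl⟩
  rw [← hL] at h1 hkl ⊢
  have hkey : ∀ δ, 0 < δ → δ ≤ (D.J * t + D.wd) - (v + L) →
      min (2 * D.Γ * ℓ + D.E (t + ℓ) (v + L)) (2 * D.Γ * (T - t))
        - D.C0 * (volume (Set.Icc v (v + L) \ P)).toReal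
      ≤ D.E t v + (2 * D.Lip + D.C0) * δ := by
    intro δ hδ hδ2
    -- a generic width
    obtain ⟨w, hw1, hw2⟩ : ∃ w ∈ Set.Ioo (v - D.kp * t) (v - D.kp * t + δ), D.Gen w := by
      have hnull : volume {w | ¬ D.Gen w} = 0 := ae_iff.mp (og_gen_ae D hD)
      by_contra hcon
      push Not at hcon
      have hsub : Set.Ioo (v - D.kp * t) (v - D.kp * t + δ) ⊆ {w | ¬ D.Gen w} :=
        fun w hw => hcon w hw
      have h2 := measure_mono_null hsub hnull
      rw [Real.volume_Ioo] at h2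
      simp at h2
      linarith
    obtain ⟨v', hv'⟩ : ∃ v', v' = w + D.kp * t := ⟨_, rfl⟩
    have hv1 : v < v' := by rw [hv']; linarith [hw1.1]
    have hv2 : v' < v + δ := by rw [hv']; linarith [hw1.2]
    have hwv : w = v' - D.kp * t := by rw [hv']; ring
    rw [hwv] at hw2
    have hg := og_ps_gen D hD P hP s T t v' ℓ hw2 hPm hst hℓ htT hT ht0 (by linarith)
      (by rw [← hL]; linarith)
    rw [← hL] at hg
    have hd1 : D.Dom t v := ⟨ht0, by linarith, by linarith, by linarith⟩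
    have hd2 : D.Dom t v' := ⟨ht0, by linarith, by linarith, by linarith⟩
    have hd3 : D.Dom (t + ℓ) (v + L) :=
      ⟨by linarith, by linarith, by linarith, by rw [mul_add]; linarith⟩
    have hd4 : D.Dom (t + ℓ) (v' + L) :=
      ⟨by linarith, by linarith, by linarith, by rw [mul_add]; linarith⟩
    have habs : |v - v'| ≤ δ := by rw [abs_le]; constructor <;> linarith
    have hl1 := hD.E_lip _ _ _ _ hd1 hd2
    have hl2 := hD.E_lip _ _ _ _ hd3 hd4
    have e1 : v + L - (v' + L) = v - v' := by ring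
    rw [sub_self, abs_zero, zero_add] at hl1 hl2
    rw [e1] at hl2
    have hLd : D.Lip * |v - v'| ≤ D.Lip * δ := mul_le_mul_of_nonneg_left habs hLip
    have hl1' := (abs_le.mp hl1).1
    have hl2' := (abs_le.mp hl2).2
    have hmin : min (2 * D.Γ * ℓ + D.E (t + ℓ) (v + L)) (2 * D.Γ * (T - t)) - D.Lip * δ
        ≤ min (2 * D.Γ * ℓ + D.E (t + ℓ) (v' + L)) (2 * D.Γ * (T - t)) := by
      have hLδ : 0 ≤ D.Lip * δ := mul_nonneg hLip hδ.le
      apply le_min
      · have := min_le_left (2 * D.Γ * ℓ + D.E (t + ℓ) (v + L)) (2 * D.Γ * (T - t))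
        linarith
      · have := min_le_right (2 * D.Γ * ℓ + D.E (t + ℓ) (v + L)) (2 * D.Γ * (T - t))
        linarith
    have hfin : volume (Set.Icc v (v + L) \ P) ≠ ⊤ :=
      ne_top_of_le_ne_top (by simp)
        (measure_mono Set.sdiff_subset : _ ≤ volume (Set.Icc v (v + L)))
    have hmeas : (volume (Set.Icc v' (v' + L) \ P)).toReal
        ≤ (volume (Set.Icc v (v + L) \ P)).toReal + δ := by
      have hsub : Set.Icc v' (v' + L) \ P
          ⊆ (Set.Icc v (v + L) \ P) ∪ Set.Icc (v + L) (v + L + δ) := by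
        intro x hx
        by_cases hxl : x ≤ v + L
        · left; exact ⟨⟨by linarith [hx.1.1], hxl⟩, hx.2⟩
        · right
          push Not at hxl
          exact ⟨hxl.le, by linarith [hx.1.2]⟩
      have h3 : volume (Set.Icc v' (v' + L) \ P)
          ≤ volume (Set.Icc v (v + L) \ P) + ENNReal.ofReal δ := by
        refine (measure_mono hsub).trans ((measure_union_le _ _).trans ?_)
        rw [Real.volume_Icc]
        have e2 : v + L + δ - (v + L) = δ := by ring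
        rw [e2]
      have h4 := ENNReal.toReal_mono (ENNReal.add_ne_top.mpr ⟨hfin, ENNReal.ofReal_ne_top⟩) h3
      rwa [ENNReal.toReal_add hfin ENNReal.ofReal_ne_top, ENNReal.toReal_ofReal hδ.le] at h4
    have hmul := mul_le_mul_of_nonneg_left hmeas hC0
    have e3 : (2 * D.Lip + D.C0) * δ = D.Lip * δ + D.Lip * δ + D.C0 * δ := by ring
    rw [e3]
    rw [mul_add] at hmul
    linarith
  apply le_of_forall_pos_le_add
  intro ε hε
  obtain ⟨K, hK⟩ : ∃ K, K = 2 * D.Lip + D.C0 := ⟨_, rfl⟩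
  have hK0 : 0 ≤ K := by rw [hK]; linarith
  rw [← hK] at hkey
  have hgap : 0 < (D.J * t + D.wd) - (v + L) := by linarith
  have hδ0 : 0 < min ((D.J * t + D.wd) - (v + L)) (ε / (K + 1)) :=
    lt_min hgap (div_pos hε (by linarith))
  have h5 := hkey _ hδ0 (min_le_left _ _)
  have h6 : K * min ((D.J * t + D.wd) - (v + L)) (ε / (K + 1)) ≤ ε := by
    calc K * min ((D.J * t + D.wd) - (v + L)) (ε / (K + 1)) ≤ K * (ε / (K + 1)) :=
          mul_le_mul_of_nonneg_left (min_le_right _ _) hK0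
      _ ≤ (K + 1) * (ε / (K + 1)) :=
          mul_le_mul_of_nonneg_right (by linarith) (div_pos hε (by linarith)).le
      _ = ε := by field_simp
  linarith

end Claimed.Agent.R256
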